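import Vale.Agent.P043.R2.Table

/-!
Helper for P043 (aperiodic tile of the plane): boxes of one side in coordinates.
A box is named by residues `x` and high digits `h`; only the digits at the axes of the band matter.
-/

namespace Vale.Agent.P043.R2

open Set

variable {l : Fin 6 → ℕ} [∀ i, NeZero (l i)]

/-- The other band. -/
def other (m : Fin 2) : Fin 2 := 1 - m

theorem other_ne (m : Fin 2) : other m ≠ m := by revert m; decide

theorem other_other (m : Fin 2) : other (other m) = m := by revert m; decide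

theorem eq_or_other (n m : Fin 2) : n = m ∨ n = other m := by revert n m; decide

theorem side_other {i : Fin 6} {m : Fin 2} (h : side i ≠ m) : side i = other m :=
  (eq_or_other (side i) m).resolve_left h

/-- Reduction from the square to the prime. -/
def red (i : Fin 6) : ZMod (l i ^ 2) →+* ZMod (l i) :=
  ZMod.castHom (dvd_pow_self _ two_ne_zero) _

/-- The point with residues `x` and high digits `h`. -/
def pos (x h : Low l) : Grp l := fun i => (((x i).val + l i * (h i).val : ℕ) : ZMod (l i ^ 2))

/-- The condition on one coordinate of a point of a box of band `m`. -/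
def Cond (m : Fin 2) (i : Fin 6) (g : ZMod (l i ^ 2)) (x h : Fin (l i)) : Prop :=
  if side i = m then (g - ((x.val + l i * h.val : ℕ) : ZMod (l i ^ 2))).val < l i
  else red i g = (x.val : ZMod (l i))

/-- A box of band `m`. -/
def InBox (m : Fin 2) (g : Grp l) (x h : Low l) : Prop := ∀ i, Cond m i (g i) (x i) (h i)

theorem pos_lt (i : Fin 6) (x h : Fin (l i)) : x.val + l i * h.val < l i ^ 2 := by
  have h1 := x.isLt
  have h2 : l i * (h.val + 1) ≤ l i * l i := Nat.mul_le_mul_left _ h.isLt
  rw [sq]; rw [Nat.mul_succ] at h2; omega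

theorem red_pos (i : Fin 6) (x h : Fin (l i)) :
    red i ((x.val + l i * h.val : ℕ) : ZMod (l i ^ 2)) = (x.val : ZMod (l i)) := by
  rw [map_natCast]; simp

theorem red_mul (i : Fin 6) (t : ℕ) : red i ((l i * t : ℕ) : ZMod (l i ^ 2)) = 0 := by
  rw [map_natCast]; simp

theorem natCast_inj_fin {n : ℕ} [NeZero n] {a b : Fin n} (h : (a.val : ZMod n) = b.val) : a = b := by
  have := congrArg ZMod.val h
  rw [ZMod.val_cast_of_lt a.isLt, ZMod.val_cast_of_lt b.isLt] at this
  exact Fin.ext this

theorem mul_cast_eq {i : Fin 6} {a b : ℕ} :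
    ((l i * a : ℕ) : ZMod (l i ^ 2)) = ((l i * b : ℕ) : ZMod (l i ^ 2)) ↔
      (a : ZMod (l i)) = (b : ZMod (l i)) := by
  rw [ZMod.natCast_eq_natCast_iff, ZMod.natCast_eq_natCast_iff, sq]
  exact Nat.ModEq.mul_left_cancel_iff' (NeZero.ne (l i))

/-- Every coordinate splits in exactly one way into a window over any phase. -/
theorem window {i : Fin 6} (g : ZMod (l i ^ 2)) (x : Fin (l i)) :
    ∃! h : Fin (l i), (g - ((x.val + l i * h.val : ℕ) : ZMod (l i ^ 2))).val < l i := by
  set v := (g - (x.val : ZMod (l i ^ 2))).val with hv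
  have hlt : v < l i * l i := by rw [← sq]; exact ZMod.val_lt _
  have hpos : 0 < l i := NeZero.pos _
  refine ⟨⟨v / l i, Nat.div_lt_of_lt_mul hlt⟩, ?_, fun h hh => ?_⟩
  · show (g - ((x.val + l i * (v / l i) : ℕ) : ZMod (l i ^ 2))).val < l i
    have : g - ((x.val + l i * (v / l i) : ℕ) : ZMod (l i ^ 2)) = ((v % l i : ℕ) : ZMod (l i ^ 2)) := by
      have e : g = (x.val : ZMod (l i ^ 2)) + (v : ZMod (l i ^ 2)) := by
        rw [hv, ZMod.natCast_rightInverse _]; ring
      conv_lhs => rw [e]; enter [1, 2]; rw [← Nat.mod_add_div v (l i)]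
      push_cast
      ring
    rw [this, ZMod.val_cast_of_lt]
    · exact Nat.mod_lt _ hpos
    · rw [sq]; exact lt_of_lt_of_le (Nat.mod_lt _ hpos) (Nat.le_mul_self _)
  · set t := (g - ((x.val + l i * h.val : ℕ) : ZMod (l i ^ 2))).val with ht
    have e : g - (x.val : ZMod (l i ^ 2)) = ((t + l i * h.val : ℕ) : ZMod (l i ^ 2)) := by
      rw [Nat.cast_add t, ht, ZMod.natCast_rightInverse _]; push_cast; ring
    have h1 : v = t + l i * h.val := by
      rw [hv, e, ZMod.val_cast_of_lt]
      exact pos_lt i ⟨t, hh⟩ h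
    apply Fin.ext
    show h.val = v / l i
    rw [h1, Nat.add_mul_div_left _ _ hpos, Nat.div_eq_of_lt hh, Nat.zero_add]

/-- In the other band, the high digit and the colour shift determine each other. -/
theorem window' {i : Fin 6} (g : ZMod (l i ^ 2)) (x t : Fin (l i))
    (hg : red i g = (x.val : ZMod (l i))) :
    ∃! h : Fin (l i),
      g - ((x.val + l i * h.val : ℕ) : ZMod (l i ^ 2)) = ((l i * t.val : ℕ) : ZMod (l i ^ 2)) := by
  obtain ⟨w, hw⟩ : ∃ w : ℕ, g - (x.val : ZMod (l i ^ 2)) = ((l i * w : ℕ) : ZMod (l i ^ 2)) := by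
    set v := (g - (x.val : ZMod (l i ^ 2))).val with hv
    have hd : ((v : ℕ) : ZMod (l i)) = 0 := by
      rw [← map_natCast (red i), hv, ZMod.natCast_rightInverse _, map_sub, hg, map_natCast, sub_self]
    obtain ⟨w, hw⟩ := (ZMod.natCast_eq_zero_iff _ _).1 hd
    exact ⟨w, by rw [← hw, hv, ZMod.natCast_rightInverse _]⟩
  have key : ∀ h : Fin (l i),
      g - ((x.val + l i * h.val : ℕ) : ZMod (l i ^ 2)) = ((l i * t.val : ℕ) : ZMod (l i ^ 2)) ↔
        (h.val : ZMod (l i)) = (w : ZMod (l i)) - (t.val : ZMod (l i)) := by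
    intro h
    rw [eq_sub_iff_add_eq (a := (h.val : ZMod (l i))), ← Nat.cast_add, ← mul_cast_eq, ← hw,
      Nat.mul_add]
    push_cast
    constructor <;> intro e <;> linear_combination (-1 : ZMod (l i ^ 2)) * e
  refine ⟨⟨((w : ZMod (l i)) - (t.val : ZMod (l i))).val, ZMod.val_lt _⟩, ?_, fun h hh => ?_⟩
  · exact (key _).2 (ZMod.natCast_rightInverse _)
  · exact natCast_inj_fin (((key h).1 hh).trans (ZMod.natCast_rightInverse _).symm)

variable {S : Side (Grp l)} {m : Fin 2} {g : Grp l} {x h : Low l} {a : ℤ} {t : Low l}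

/-- The coordinates of a translate of a piece. -/
theorem Standard.coord (hS : Standard l S) (ha : a ∈ S.A m) (e : g - S.φ a = pos x h) :
    ∃ t : Low l, (∀ i, g i - ((((x i).val + l i * (h i).val : ℕ)) : ZMod (l i ^ 2)) =
        if side i = m then ((t i).val : ZMod (l i ^ 2))
        else ((l i * (t i).val : ℕ) : ZMod (l i ^ 2))) ∧
      ∀ i, (S.v m a : ZMod (l i)) = ((t i).val : ZMod (l i)) := by
  obtain ⟨t, ht⟩ := hS.digits m a ha
  refine ⟨t, fun i => ?_, hS.colour m a ha t ht⟩
  rw [← ht i]
  have e' : g i - S.φ a i = ((((x i).val + l i * (h i).val : ℕ)) : ZMod (l i ^ 2)) :=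
    congrFun e i
  rw [← e']; ring

/-- The translates of a piece at `pos x h` cover a box. -/
theorem Standard.inBox_iff (hS : Standard l S) :
    (∃ a ∈ S.A m, g - S.φ a = pos x h) ↔ InBox m g x h := by
  constructor
  · rintro ⟨a, ha, e⟩ i
    obtain ⟨t, ht, -⟩ := hS.coord ha e
    unfold Cond
    split_ifs with hi
    · rw [ht i, if_pos hi, ZMod.val_cast_of_lt]
      · exact (t i).isLt
      · rw [sq]; exact lt_of_lt_of_le (t i).isLt (Nat.le_mul_self _)
    · have h1 := congrArg (red i) (ht i)
      rw [if_neg hi, map_sub, red_pos, red_mul, sub_eq_zero] at h1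
      exact h1
  · intro hb
    have : ∀ i, ∃ t : Fin (l i), g i - ((((x i).val + l i * (h i).val : ℕ)) : ZMod (l i ^ 2)) =
        if side i = m then (t.val : ZMod (l i ^ 2)) else ((l i * t.val : ℕ) : ZMod (l i ^ 2)) := by
      intro i
      have hc := hb i
      unfold Cond at hc
      by_cases hi : side i = m
      · rw [if_pos hi] at hc
        exact ⟨⟨_, hc⟩, by rw [if_pos hi]; exact (ZMod.natCast_rightInverse _).symm⟩
      · rw [if_neg hi] at hc
        set v := (g i - ((((x i).val + l i * (h i).val : ℕ)) : ZMod (l i ^ 2))).val with hv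
        have hd : (v : ZMod (l i)) = 0 := by
          rw [← map_natCast (red i), hv, ZMod.natCast_rightInverse _, map_sub, hc, red_pos, sub_self]
        obtain ⟨w, hw⟩ := (ZMod.natCast_eq_zero_iff _ _).1 hd
        have hlt : l i * w < l i * l i := by rw [← hw, ← sq]; exact ZMod.val_lt _
        refine ⟨⟨w, Nat.lt_of_mul_lt_mul_left hlt⟩, ?_⟩
        rw [if_neg hi]
        show _ = ((l i * w : ℕ) : ZMod (l i ^ 2))
        rw [← hw, hv, ZMod.natCast_rightInverse _]
    choose t ht using this
    obtain ⟨a, ha, hd⟩ := hS.exists_rep m t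
    refine ⟨a, ha, funext fun i => ?_⟩
    show g i - S.φ a i = (((x i).val + l i * (h i).val : ℕ) : ZMod (l i ^ 2))
    rw [hd i, ← ht i]; ring

/-- A translate gives its piece only once. -/
theorem Standard.inj (hS : Standard l S) {a b : ℤ} (ha : a ∈ S.A m) (hb : b ∈ S.A m)
    (e : g - S.φ a = g - S.φ b) : a = b :=
  hS.unique_rep m ha hb (sub_right_injective e)

/-- One translate with all colours covers one box in each band. -/
theorem Standard.exact_point (hS : Standard l S) (k : ℕ) (x h : Low l) :
    S.Exact k {pos x h} fun m => {g | InBox m g x h} := by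
  intro m g d
  constructor
  · show _ ↔ InBox m g x h
    rw [← hS.inBox_iff]
    exact exists_congr fun a => and_congr_right fun _ => ⟨fun e => e.1, fun e => ⟨e, trivial⟩⟩
  · intro a ha b hb e e'
    exact hS.inj ha hb (e.1.trans e'.1.symm)

/-- A box only sees the digits at the axes of its band. -/
theorem inBox_congr {h' : Low l} (e : ∀ i, side i = m → h i = h' i) :
    InBox m g x h ↔ InBox m g x h' := by
  refine forall_congr' fun i => ?_
  unfold Cond
  split_ifs with hi
  · rw [e i hi]
  · rfl

end Vale.Agent.P043.R2
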