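import Vale.Agent.P043.R2.Tori

/-!
Helper for P043 (aperiodic tile of the plane): a table gives a partition into single cells and
pools of units, with weak tilings of units and exact tilings of groups of units.
-/

namespace Vale.Agent.P043.R2

open Set

variable {l : Fin 6 → ℕ} [∀ i, NeZero (l i)] {tab : Fin 2 → Low l → Torus}
  (ht : TableOK l tab) {m : Fin 2}

theorem card_fixed (x : Low l) :
    Nat.card {f : Fixed tab m // key ht f = x} = (tab m (cls m x)).fixed m x := by
  let c0 : Cls l m := ⟨cls m x, by funext i; unfold cls; split_ifs <;> rfl⟩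
  have hfst : ∀ f : Fixed tab m, key ht f = x → f.1 = c0 := fun f hf =>
    Subtype.ext (by show f.1.1 = cls m x; rw [← hf]; exact (cls_line ht f.1 _).symm)
  by_cases hx : (tor tab c0).OnLine m x
  · let z0 : Fin (len tab c0) := x (tor tab c0).axis
    let F : Fin ((tor tab c0).fix z0.val) × Fin (len tab c0) → {f : Fixed tab m // key ht f = x} :=
      fun p => ⟨⟨c0, ⟨z0, p.1⟩, p.2⟩, (eq_line ht (c := c0) rfl hx).symm⟩
    have hF : Function.Bijective F := by
      refine ⟨fun p q h => ?_, ?_⟩
      · have h' : (⟨c0, ⟨z0, p.1⟩, p.2⟩ : Fixed tab m) = ⟨c0, ⟨z0, q.1⟩, q.2⟩ := congrArg Subtype.val h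
        simp at h'
        exact Prod.ext h'.1 h'.2
      · rintro ⟨⟨c, ⟨z, n⟩, H⟩, hf⟩
        obtain rfl : c = c0 := hfst _ hf
        obtain rfl : z = z0 := by
          have := congrFun hf (tor tab c0).axis
          rw [key, line_axis] at this
          exact this
        exact ⟨(n, H), rfl⟩
    rw [← Nat.card_congr (Equiv.ofBijective F hF)]
    simp only [Nat.card_eq_fintype_card, Fintype.card_prod, Fintype.card_fin, Torus.fixed]
    rw [if_pos hx]
    exact mul_comm _ _
  · have : IsEmpty {f : Fixed tab m // key ht f = x} := ⟨fun ⟨f, hf⟩ => hx (by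
      rw [← hfst f hf, ← hf]; exact onLine_line ht f.1 _)⟩
    rw [Nat.card_of_isEmpty, Torus.fixed, if_neg hx]

theorem count_eq_card (L : List ℕ) {n : ℕ} (hn : L.length = n) (z : ℕ) :
    Nat.card {i : Fin n // L.getD i.val 0 = z} = L.count z := by
  subst hn
  simp only [List.getD_eq_getElem _ _ (Fin.isLt _)]
  rw [Nat.card_eq_fintype_card, Fintype.card_subtype]
  conv_rhs => rw [← List.ofFn_getElem (xs := L), ← Multiset.coe_count, ← Fin.univ_val_map,
    Multiset.count_map]
  rw [Finset.card_def, Finset.filter_val]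
  simp only [eq_comm]

theorem card_slots (x : Low l) :
    Nat.card {s : Slot tab m // slotKey ht s = x} = (tab m (cls m x)).slots m x := by
  let c0 : Cls l m := ⟨cls m x, by funext i; unfold cls; split_ifs <;> rfl⟩
  have hfst : ∀ s : Slot tab m, slotKey ht s = x → s.1 = c0 := fun s hs =>
    Subtype.ext (by show s.1.1 = cls m x; rw [← hs]; exact (cls_line ht s.1 _).symm)
  by_cases hx : (tor tab c0).OnLine m x
  · let z0 : Fin (len tab c0) := x (tor tab c0).axis
    let F : ((q : Fin (tor tab c0).pools.length) × (Fin ((tor tab c0).pools.get q).1 ×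
        {i : Fin (len tab c0) // ((tor tab c0).pools.get q).2.getD i.val 0 = z0.val})) →
        {s : Slot tab m // slotKey ht s = x} :=
      fun p => ⟨⟨c0, ⟨p.1, p.2.1⟩, p.2.2.1⟩, by
        have : zres ht c0 p.1 p.2.2.1 = z0 := Fin.ext p.2.2.2
        show line ht c0 _ = x
        rw [this]
        exact (eq_line ht (c := c0) rfl hx).symm⟩
    have hF : Function.Bijective F := by
      refine ⟨fun p q h => ?_, ?_⟩
      · have h' := congrArg Subtype.val h
        obtain ⟨q1, u1, i1, e1⟩ := p
        obtain ⟨q2, u2, i2, e2⟩ := q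
        simp [F] at h'
        obtain ⟨⟨rfl, h2⟩, rfl⟩ := h'
        cases h2
        rfl
      · rintro ⟨⟨c, ⟨q, u⟩, i⟩, hs⟩
        obtain rfl : c = c0 := hfst _ hs
        have : zres ht c0 q i = z0 := by
          have h1 := congrFun hs (tor tab c0).axis
          rw [slotKey, line_axis] at h1
          exact h1
        exact ⟨⟨q, u, i, congrArg Fin.val this⟩, rfl⟩
    rw [← Nat.card_congr (Equiv.ofBijective F hF), Nat.card_sigma]
    simp only [Torus.slots]
    rw [if_pos hx]
    conv_rhs => rw [← List.ofFn_get (tab m (cls m x)).pools, List.map_ofFn, List.sum_ofFn]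
    refine Finset.sum_congr rfl fun q _ => ?_
    rw [Nat.card_prod, Nat.card_fin,
      count_eq_card _ (ht.lists m c0.1 c0.2 _ ((tor tab c0).pools.get_mem q)).1]
    rfl
  · have : IsEmpty {s : Slot tab m // slotKey ht s = x} := ⟨fun ⟨s, hs⟩ => hx (by
      rw [← hfst s hs, ← hs]; exact onLine_line ht s.1 _)⟩
    rw [Nat.card_of_isEmpty, Torus.slots, if_neg hx]

/-- Single cells: a key and a number. -/
abbrev Single (tab : Fin 2 → Low l → Torus) : Type :=
  (x : Low l) × Fin ((tab 0 (cls 0 x)).fixed 0 x - (tab 1 (cls 1 x)).slots 1 x)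

/-- The key of a single cell or of a slot. -/
def cellKey (m : Fin 2) : Single tab ⊕ Slot tab m → Low l := Sum.elim Sigma.fst (slotKey ht)

include ht in
theorem exists_match (m : Fin 2) :
    ∃ e : Fixed tab (other m) ≃ Single tab ⊕ Slot tab m,
      ∀ f, cellKey ht m (e f) = key ht f := by
  have hc : ∀ x, Nat.card {f : Fixed tab (other m) // key ht f = x} =
      Nat.card {p : Single tab ⊕ Slot tab m // cellKey ht m p = x} := by
    intro x
    rw [card_fixed, Nat.card_congr (Equiv.subtypeSum (p := fun p => cellKey ht m p = x)),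
      Nat.card_sum]
    have h1 : Nat.card {σ : Single tab // σ.1 = x} =
        (tab 0 (cls 0 x)).fixed 0 x - (tab 1 (cls 1 x)).slots 1 x := by
      rw [Nat.card_congr (Equiv.sigmaSubtype x), Nat.card_fin]
    change _ = Nat.card {σ : Single tab // σ.1 = x} + Nat.card {s : Slot tab m // slotKey ht s = x}
    rw [h1, card_slots]
    have := ht.total x
    have := ht.room x
    rcases eq_or_other m 0 with rfl | rfl
    · show (tab 1 (cls 1 x)).fixed 1 x = _
      omega
    · show (tab 0 (cls 0 x)).fixed 0 x = _ + (tab 1 (cls 1 x)).slots 1 x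
      omega
  let e := fun x => (Finite.card_eq.1 (hc x)).some
  exact ⟨Equiv.ofFiberEquiv e, fun f => Equiv.ofFiberEquiv_map e f⟩

/-- A chosen matching. -/
noncomputable def mate (m : Fin 2) : Fixed tab (other m) ≃ Single tab ⊕ Slot tab m :=
  (exists_match ht m).choose

theorem key_mate (p : Single tab ⊕ Slot tab m) :
    key ht ((mate ht m).symm p) = cellKey ht m p := by
  have := (exists_match ht m).choose_spec ((mate ht m).symm p)
  rw [mate, Equiv.apply_symm_apply] at this
  exact this.symm

/-- The high digits in band `other m` of a single cell or slot of band `m`. -/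
noncomputable def far (m : Fin 2) (p : Single tab ⊕ Slot tab m) : Low l :=
  high ht ((mate ht m).symm p)

/-- The high digits of a single cell. -/
noncomputable def highS (σ : Single tab) : Low l := fun i => far ht (other (side i)) (Sum.inl σ) i

theorem inBox_single (σ : Single tab) (g : Grp l) :
    InBox (other m) g σ.1 (highS ht σ) ↔
      InBox (other m) g (key ht ((mate ht m).symm (Sum.inl σ)))
        (high ht ((mate ht m).symm (Sum.inl σ))) := by
  rw [key_mate]
  refine inBox_congr fun i hi => ?_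
  have : other (side i) = m := by rw [hi, other_other]
  show far ht (other (side i)) (Sum.inl σ) i = far ht m (Sum.inl σ) i
  generalize other (side i) = n at this
  subst this
  rfl

/-- Pools: a band, a class and a pool of its torus. -/
abbrev Pool (tab : Fin 2 → Low l → Torus) : Type :=
  (m : Fin 2) × (c : Cls l m) × Fin (tor tab c).pools.length

/-- The region of a unit. -/
noncomputable def regUnit (π : Pool tab) (u : Fin ((tor tab π.2.1).pools.get π.2.2).1)
    (n : Fin 2) : Set (Grp l) :=
  {g | if n = π.1 then InCol ht π.2.1 ((ecol ht π.2.1).symm (Sum.inl ⟨π.2.2, u⟩)).1 g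
    else ∃ i, InBox n g (slotKey ht (⟨π.2.1, ⟨π.2.2, u⟩, i⟩ : Slot tab π.1))
      (far ht π.1 (Sum.inr ⟨π.2.1, ⟨π.2.2, u⟩, i⟩))}

theorem cells_partition :
    Partition (Sum.elim (fun σ : Single tab => fun n => {g | InBox n g σ.1 (highS ht σ)})
      fun u : (π : Pool tab) × Fin ((tor tab π.2.1).pools.get π.2.2).1 => regUnit ht u.1 u.2) := by
  intro n g
  obtain ⟨m, rfl⟩ : ∃ m, n = other m := ⟨other n, (other_other n).symm⟩
  obtain ⟨p, hp, hu⟩ := band_partition ht (other m) g
  rcases p with f | ⟨c, ⟨q, u⟩⟩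
  · cases hf : mate ht m f with
    | inl σ =>
      have hfe : (mate ht m).symm (Sum.inl σ) = f := by rw [← hf]; simp
      refine ⟨Sum.inl σ, ?_, ?_⟩
      · show InBox (other m) g σ.1 (highS ht σ)
        rw [inBox_single, hfe]; exact hp
      · rintro (σ' | ⟨⟨m', c', q'⟩, u'⟩) hg
        · have := hu (Sum.inl ((mate ht m).symm (Sum.inl σ'))) ((inBox_single ht σ' g).1 hg)
          rw [← hfe] at this
          exact congrArg Sum.inl (Sum.inl_injective ((mate ht m).symm.injective (Sum.inl_injective this)))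
        · rcases eq_or_other m' m with rfl | rfl
          · simp only [Sum.elim_inr, regUnit, mem_ofPred_eq, other_ne, if_false] at hg
            obtain ⟨i, hi⟩ := hg
            have hi' : InBox (other m') g (key ht ((mate ht m').symm (Sum.inr ⟨c', ⟨q', u'⟩, i⟩)))
                (high ht ((mate ht m').symm (Sum.inr ⟨c', ⟨q', u'⟩, i⟩))) := by
              rw [key_mate]; exact hi
            have := hu (Sum.inl _) hi'
            rw [← hfe] at this
            exact absurd ((mate ht m').symm.injective (Sum.inl_injective this)) (by simp)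
          · simp only [Sum.elim_inr, regUnit, mem_ofPred_eq, if_true] at hg
            exact absurd (hu (Sum.inr ⟨c', ⟨q', u'⟩⟩) hg) (by simp)
    | inr s =>
      obtain ⟨c, ⟨q, u⟩, i⟩ := s
      have hfe : (mate ht m).symm (Sum.inr ⟨c, ⟨q, u⟩, i⟩) = f := by rw [← hf]; simp
      refine ⟨Sum.inr ⟨⟨m, c, q⟩, u⟩, ?_, ?_⟩
      · simp only [Sum.elim_inr, regUnit, mem_ofPred_eq, other_ne, if_false]
        refine ⟨i, ?_⟩
        have h0 : InBox (other m) g (key ht f) (high ht f) := hp
        rw [← hfe, key_mate] at h0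
        exact h0
      · rintro (σ' | ⟨⟨m', c', q'⟩, u'⟩) hg
        · have := hu (Sum.inl ((mate ht m).symm (Sum.inl σ'))) ((inBox_single ht σ' g).1 hg)
          rw [← hfe] at this
          exact absurd ((mate ht m).symm.injective (Sum.inl_injective this)) (by simp)
        · rcases eq_or_other m' m with rfl | rfl
          · simp only [Sum.elim_inr, regUnit, mem_ofPred_eq, other_ne, if_false] at hg
            obtain ⟨i', hi⟩ := hg
            have hi' : InBox (other m') g (key ht ((mate ht m').symm (Sum.inr ⟨c', ⟨q', u'⟩, i'⟩)))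
                (high ht ((mate ht m').symm (Sum.inr ⟨c', ⟨q', u'⟩, i'⟩))) := by
              rw [key_mate]; exact hi
            have := hu (Sum.inl _) hi'
            rw [← hfe] at this
            have := Sum.inr_injective ((mate ht m').symm.injective (Sum.inl_injective this))
            cases this
            rfl
          · simp only [Sum.elim_inr, regUnit, mem_ofPred_eq, if_true] at hg
            exact absurd (hu (Sum.inr ⟨c', ⟨q', u'⟩⟩) hg) (by simp)
  · refine ⟨Sum.inr ⟨⟨other m, c, q⟩, u⟩, ?_, ?_⟩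
    · simp only [Sum.elim_inr, regUnit, mem_ofPred_eq, if_true]
      exact hp
    · rintro (σ' | ⟨⟨m', c', q'⟩, u'⟩) hg
      · exact absurd (hu (Sum.inl ((mate ht m).symm (Sum.inl σ'))) ((inBox_single ht σ' g).1 hg))
          (by simp)
      · rcases eq_or_other m' m with rfl | rfl
        · simp only [Sum.elim_inr, regUnit, mem_ofPred_eq, other_ne, if_false] at hg
          obtain ⟨i', hi⟩ := hg
          have hi' : InBox (other m') g (key ht ((mate ht m').symm (Sum.inr ⟨c', ⟨q', u'⟩, i'⟩)))
              (high ht ((mate ht m').symm (Sum.inr ⟨c', ⟨q', u'⟩, i'⟩))) := by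
            rw [key_mate]; exact hi
          exact absurd (hu (Sum.inl _) hi') (by simp)
        · simp only [Sum.elim_inr, regUnit, mem_ofPred_eq, if_true] at hg
          have := hu (Sum.inr ⟨c', ⟨q', u'⟩⟩) hg
          cases this
          rfl

/-- The digits of `h` at the axes of band `m`, of `h'` elsewhere. -/
def comb (m : Fin 2) (h h' : Low l) : Low l := fun i => if side i = m then h i else h' i

/-- A translate: residue of slot `i`, column of unit `u` with digit `H`, box of slot `i` of
unit `u'`. -/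
noncomputable def point (c : Cls l m) (q : Fin (tor tab c).pools.length)
    (u u' : Fin ((tor tab c).pools.get q).1) (i H : Fin (len tab c)) : Grp l :=
  pos (line ht c (zres ht c q i))
    (comb m (Function.update ((ecol ht c).symm (Sum.inl ⟨q, u⟩)).1 (tor tab c).axis H)
      (far ht m (Sum.inr ⟨c, ⟨q, u'⟩, i⟩)))

variable {S : Side (Grp l)} (hS : Standard l S) {c : Cls l m} {q : Fin (tor tab c).pools.length}
  {u u' : Fin ((tor tab c).pools.get q).1} {i H : Fin (len tab c)} {g : Grp l} {a : ℤ}

include hS in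
theorem cover_same :
    (∃ a ∈ S.A m, g - S.φ a = point ht c q u u' i H) ↔
      InCol ht c ((ecol ht c).symm (Sum.inl ⟨q, u⟩)).1 g ∧
        Cond m _ (g (tor tab c).axis) (zres ht c q i) H := by
  rw [point, hS.inBox_iff]
  exact (inBox_congr fun j hj => if_pos hj).trans (inBox_line ht c _ H _ g)

include hS in
theorem cover_other :
    (∃ a ∈ S.A (other m), g - S.φ a = point ht c q u u' i H) ↔
      InBox (other m) g (slotKey ht (⟨c, ⟨q, u'⟩, i⟩ : Slot tab m))
        (far ht m (Sum.inr ⟨c, ⟨q, u'⟩, i⟩)) := by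
  rw [point, hS.inBox_iff]
  refine inBox_congr fun j hj => if_neg ?_
  rw [hj]; exact other_ne m

theorem slot_unique {u₁ u₂ : Fin ((tor tab c).pools.get q).1} {i₁ i₂ : Fin (len tab c)}
    (h₁ : InBox (other m) g (slotKey ht (⟨c, ⟨q, u₁⟩, i₁⟩ : Slot tab m))
      (far ht m (Sum.inr ⟨c, ⟨q, u₁⟩, i₁⟩)))
    (h₂ : InBox (other m) g (slotKey ht (⟨c, ⟨q, u₂⟩, i₂⟩ : Slot tab m))
      (far ht m (Sum.inr ⟨c, ⟨q, u₂⟩, i₂⟩))) : u₁ = u₂ ∧ i₁ = i₂ := by
  have e : ∀ s : Slot tab m, InBox (other m) g (slotKey ht s) (far ht m (Sum.inr s)) →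
      InBox (other m) g (key ht ((mate ht m).symm (Sum.inr s)))
        (high ht ((mate ht m).symm (Sum.inr s))) := fun s h => by rw [key_mate]; exact h
  have := (band_partition ht (other m) g).unique (y₁ := Sum.inl _) (y₂ := Sum.inl _) (e _ h₁) (e _ h₂)
  have := Sum.inr_injective ((mate ht m).symm.injective (Sum.inl_injective this))
  simpa using this

theorem col_unique {u₁ u₂ : Fin ((tor tab c).pools.get q).1}
    (h₁ : InCol ht c ((ecol ht c).symm (Sum.inl ⟨q, u₁⟩)).1 g)
    (h₂ : InCol ht c ((ecol ht c).symm (Sum.inl ⟨q, u₂⟩)).1 g) : u₁ = u₂ := by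
  have := (band_partition ht m g).unique (y₁ := Sum.inr ⟨c, ⟨q, u₁⟩⟩) (y₂ := Sum.inr ⟨c, ⟨q, u₂⟩⟩) h₁ h₂
  simpa using this

include hS in
theorem axis_same (ha : a ∈ S.A m) (e : g - S.φ a = point ht c q u u' i H) :
    (S.v m a : ZMod (len tab c)) =
      red (tor tab c).axis (g (tor tab c).axis) - ((zres ht c q i).val : ZMod (len tab c)) := by
  obtain ⟨t, h1, h2⟩ := hS.coord ha e
  have := congrArg (red (tor tab c).axis) (h1 (tor tab c).axis)
  rw [if_pos (ht.axis m c.1 c.2), map_sub, red_pos, line_axis, map_natCast] at this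
  exact (h2 _).trans this.symm

include hS in
theorem axis_other (ha : a ∈ S.A (other m)) (e : g - S.φ a = point ht c q u u' i H) :
    ∃ t : Fin (len tab c), (S.v (other m) a : ZMod (len tab c)) = (t.val : ZMod (len tab c)) ∧
      g (tor tab c).axis - ((((zres ht c q i).val + len tab c * H.val : ℕ)) : ZMod _) =
        ((len tab c * t.val : ℕ) : ZMod (l (tor tab c).axis ^ 2)) := by
  obtain ⟨t, h1, h2⟩ := hS.coord ha e
  refine ⟨t (tor tab c).axis, h2 _, ?_⟩
  have := h1 (tor tab c).axis
  rw [if_neg (by rw [ht.axis m c.1 c.2]; exact (other_ne m).symm), line_axis] at this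
  unfold comb at this
  rw [if_pos (ht.axis m c.1 c.2), Function.update_self] at this
  exact this

variable (k : ℕ)

include hS in
theorem unit_weak (hk : ∀ i, l i ∣ k) (π : Pool tab)
    (u : Fin ((tor tab π.2.1).pools.get π.2.2).1) :
    ∃ W : Set (Grp l × ZMod k), S.Weak W (regUnit ht π u) := by
  obtain ⟨m, c, q⟩ := π
  let κ := ZMod.castHom (hk (tor tab c).axis) (ZMod (len tab c))
  refine ⟨{p | ∃ i H, p.1 = point ht c q u u i H ∧
    κ p.2 = (i.val : ZMod (len tab c)) + ((zres ht c q i).val : ZMod (len tab c))}, ?_⟩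
  intro n g d
  rcases eq_or_other n m with rfl | rfl
  · have colour : ∀ a ∈ S.A n, ∀ i H, g - S.φ a = point ht c q u u i H →
        (κ (d - (S.v n a : ZMod k)) = (i.val : ZMod (len tab c)) + ((zres ht c q i).val : ZMod (len tab c)) ↔
          (i.val : ZMod (len tab c)) = κ d - red (tor tab c).axis (g (tor tab c).axis)) := by
      intro a ha i H e
      rw [map_sub, map_intCast, axis_same ht hS ha e]
      constructor <;> intro h' <;> linear_combination -h'
    simp only [regUnit, mem_ofPred_eq, if_true]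
    refine ⟨⟨?_, fun hg => ?_⟩, ?_⟩
    · rintro ⟨a, ha, i, H, e, -⟩
      exact ((cover_same ht hS).1 ⟨a, ha, e⟩).1
    · let i : Fin (len tab c) := ⟨(κ d - red (tor tab c).axis (g (tor tab c).axis)).val, ZMod.val_lt _⟩
      obtain ⟨H, hH, -⟩ := window (g (tor tab c).axis) (zres ht c q i)
      obtain ⟨a, ha, e⟩ := (cover_same ht hS (u := u) (u' := u) (i := i) (H := H)).2 ⟨hg, by
        unfold Cond; rw [if_pos (ht.axis n c.1 c.2)]; exact hH⟩
      exact ⟨a, ha, i, H, e, (colour a ha i H e).2 (ZMod.natCast_rightInverse _)⟩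
    · rintro a ha a' ha' ⟨i, H, e, he⟩ ⟨i', H', e', he'⟩
      obtain rfl : i = i' :=
        natCast_inj_fin (((colour a ha i H e).1 he).trans ((colour a' ha' i' H' e').1 he').symm)
      have h1 := ((cover_same ht hS).1 ⟨a, ha, e⟩).2
      have h2 := ((cover_same ht hS).1 ⟨a', ha', e'⟩).2
      unfold Cond at h1 h2
      rw [if_pos (ht.axis n c.1 c.2)] at h1 h2
      obtain rfl := (window (g (tor tab c).axis) (zres ht c q i)).unique h1 h2
      exact hS.inj ha ha' (e.trans e'.symm)
  · simp only [regUnit, mem_ofPred_eq, other_ne, if_false]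
    refine ⟨⟨?_, ?_⟩, ?_⟩
    · rintro ⟨a, ha, i, H, e, -⟩
      exact ⟨i, (cover_other ht hS).1 ⟨a, ha, e⟩⟩
    · rintro ⟨i, hi⟩
      let t : Fin (len tab c) := ⟨(κ d - (i.val : ZMod (len tab c)) -
        ((zres ht c q i).val : ZMod (len tab c))).val, ZMod.val_lt _⟩
      have hred : red (tor tab c).axis (g (tor tab c).axis) =
          ((zres ht c q i).val : ZMod (len tab c)) := by
        have := hi (tor tab c).axis
        unfold Cond at this
        rw [if_neg (by rw [ht.axis m c.1 c.2]; exact (other_ne m).symm), slotKey, line_axis] at this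
        exact this
      obtain ⟨H, hH, -⟩ := window' (g (tor tab c).axis) (zres ht c q i) t hred
      obtain ⟨a, ha, e⟩ := (cover_other ht hS (u := u) (u' := u) (i := i) (H := H)).2 hi
      refine ⟨a, ha, i, H, e, ?_⟩
      obtain ⟨t', hv, ht'⟩ := axis_other ht hS ha e
      show κ (d - (S.v (other m) a : ZMod k)) = _
      rw [map_sub, map_intCast, hv, mul_cast_eq.1 (ht'.symm.trans hH), ZMod.natCast_rightInverse _]
      ring
    · rintro a ha a' ha' ⟨i, H, e, he⟩ ⟨i', H', e', he'⟩
      obtain ⟨-, rfl⟩ :=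
        slot_unique ht ((cover_other ht hS).1 ⟨a, ha, e⟩) ((cover_other ht hS).1 ⟨a', ha', e'⟩)
      obtain ⟨t, hv, h1⟩ := axis_other ht hS ha e
      obtain ⟨t', hv', h1'⟩ := axis_other ht hS ha' e'
      have he₁ : κ (d - (S.v (other m) a : ZMod k)) = _ := he
      have he₂ : κ (d - (S.v (other m) a' : ZMod k)) = _ := he'
      rw [map_sub, map_intCast, hv] at he₁
      rw [map_sub, map_intCast, hv'] at he₂
      obtain rfl : t = t' := natCast_inj_fin (by linear_combination he₂ - he₁)
      have hred : red (tor tab c).axis (g (tor tab c).axis) =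
          ((zres ht c q i).val : ZMod (len tab c)) := by
        have := congrArg (red (tor tab c).axis) h1
        rw [map_sub, red_pos, red_mul, sub_eq_zero] at this
        exact this
      obtain rfl := (window' (g (tor tab c).axis) (zres ht c q i) t hred).unique h1 h1'
      exact hS.inj ha ha' (e.trans e'.symm)

include hS in
theorem group_exact (π : Pool tab)
    (f : Fin (len tab π.2.1) ↪ Fin ((tor tab π.2.1).pools.get π.2.2).1) :
    ∃ X, S.Exact k X fun n => ⋃ i, regUnit ht π (f i) n := by
  obtain ⟨m, c, q⟩ := π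
  refine ⟨{p | ∃ i H, p = point ht c q (f i) (f H) i H}, ?_⟩
  intro n g d
  rcases eq_or_other n m with rfl | rfl
  · simp only [regUnit, mem_iUnion, mem_ofPred_eq, if_true]
    refine ⟨⟨?_, ?_⟩, ?_⟩
    · rintro ⟨a, ha, ⟨i, H, e⟩, -⟩
      exact ⟨i, ((cover_same ht hS).1 ⟨a, ha, e⟩).1⟩
    · rintro ⟨i, hi⟩
      obtain ⟨H, hH, -⟩ := window (g (tor tab c).axis) (zres ht c q i)
      obtain ⟨a, ha, e⟩ := (cover_same ht hS (u := f i) (u' := f H) (i := i) (H := H)).2 ⟨hi, by
        unfold Cond; rw [if_pos (ht.axis n c.1 c.2)]; exact hH⟩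
      exact ⟨a, ha, ⟨i, H, e⟩, trivial⟩
    · rintro a ha a' ha' ⟨⟨i, H, e⟩, -⟩ ⟨⟨i', H', e'⟩, -⟩
      have h1 := (cover_same ht hS).1 ⟨a, ha, e⟩
      have h2 := (cover_same ht hS).1 ⟨a', ha', e'⟩
      obtain rfl := f.injective (col_unique ht h1.1 h2.1)
      have h1' := h1.2
      have h2' := h2.2
      unfold Cond at h1' h2'
      rw [if_pos (ht.axis n c.1 c.2)] at h1' h2'
      obtain rfl := (window (g (tor tab c).axis) (zres ht c q i)).unique h1' h2'
      exact hS.inj ha ha' (e.trans e'.symm)
  · simp only [regUnit, mem_iUnion, mem_ofPred_eq, other_ne, if_false]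
    refine ⟨⟨?_, ?_⟩, ?_⟩
    · rintro ⟨a, ha, ⟨i, H, e⟩, -⟩
      exact ⟨H, i, (cover_other ht hS).1 ⟨a, ha, e⟩⟩
    · rintro ⟨H, i, hi⟩
      obtain ⟨a, ha, e⟩ := (cover_other ht hS (u := f i) (u' := f H) (i := i) (H := H)).2 hi
      exact ⟨a, ha, ⟨i, H, e⟩, trivial⟩
    · rintro a ha a' ha' ⟨⟨i, H, e⟩, -⟩ ⟨⟨i', H', e'⟩, -⟩
      obtain ⟨hu, rfl⟩ :=
        slot_unique ht ((cover_other ht hS).1 ⟨a, ha, e⟩) ((cover_other ht hS).1 ⟨a', ha', e'⟩)
      obtain rfl := f.injective hu
      exact hS.inj ha ha' (e.trans e'.symm)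

theorem cellsStep : CellsStep := by
  intro l _ S k _ tab PK _ hk hS ht hP
  refine ⟨{
    Single := Single tab
    Pool := Pool tab
    l := fun π => len tab π.2.1
    size := fun π => ((tor tab π.2.1).pools.get π.2.2).1
    regS := fun σ n => {g | InBox n g σ.1 (highS ht σ)}
    regU := regUnit ht
    partition := cells_partition ht
    single := fun σ => ⟨_, hS.exact_point k σ.1 (highS ht σ)⟩
    unit := unit_weak ht hS k hk
    group := group_exact ht hS k }, fun π => ?_⟩
  exact hP π.1 π.2.1.1 π.2.1.2 _ ((tor tab π.2.1).pools.get_mem π.2.2)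

/-- The composition from tables to a system of translates. -/
theorem systemStep_of_glue (hg : GlueStep) : SystemStep := systemStep_of hg cellsStep

end Vale.Agent.P043.R2
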