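import Mathlib

/-!
Helper for P043: an aperiodic translational tile of the plane; the shapes and the interfaces.
See notes/P043/R2_PROOF_helper4.md. Space is `ℝ × ℝ`, the second factor carrying the rows.
-/

namespace Vale.Agent.P043.R2

open MeasureTheory Set

/-- The two bands of a row: a notched interval with its bump, and the gap. -/
noncomputable def K : Fin 2 → Set ℝ :=
  ![(Ico 0 (3 / 4) \ Ico (1 / 4) (5 / 16)) ∪ Ico (5 / 4) (21 / 16), Ico (3 / 4) 1]

/-- The curvature of the pieces of a band. -/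
noncomputable def curv : Fin 2 → ℝ := ![1, 2]

/-- A point with an integral row, in the plane. -/
def pt (p : ℝ × ℤ) : ℝ × ℝ := (p.1, (p.2 : ℝ))

/-- A unit interval, bent by a quadratic, over a band. -/
def prism (m : Fin 2) : Set (ℝ × ℝ) := {z | z.2 ∈ K m ∧ z.1 - curv m * z.2 ^ 2 ∈ Ico 0 1}

/-- The union of the pieces at the points of `F`. -/
def body (F : Fin 2 → Finset (ℝ × ℤ)) : Set (ℝ × ℝ) :=
  {z | ∃ m, ∃ p ∈ F m, z - pt p ∈ prism m}

/-- In every band and row the translated points run exactly once through a coset of `ℤ`. -/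
def Sys (F : Fin 2 → Finset (ℝ × ℤ)) (B : Set (ℝ × ℤ)) : Prop :=
  ∀ m : Fin 2, ∀ r : ℤ, ∃ ψ : ℝ,
    (∀ a ∈ B, ∀ p ∈ F m, a.2 + p.2 = r → ∃ z : ℤ, a.1 + p.1 = ψ + z) ∧
    ∀ z : ℤ, ∃! q : (ℝ × ℤ) × (ℝ × ℤ),
      q.1 ∈ B ∧ q.2 ∈ F m ∧ q.1.2 + q.2.2 = r ∧ q.1.1 + q.2.1 = ψ + z

/-- The piece positions of two sides with colours: the row is `a + b`, the offset `√2 a + v`. -/
noncomputable def spots (A B : Fin 2 → Finset ℤ) (v : Fin 2 → ℤ × ℤ → ℤ) (m : Fin 2) :
    Finset (ℝ × ℤ) :=
  (A m ×ˢ B m).image fun f => (Real.sqrt 2 * f.1 + (v m f : ℝ), f.1 + f.2)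

/-- The rows of a band are distinct. -/
def RowsInj (A B : Fin 2 → Finset ℤ) : Prop :=
  ∀ m, InjOn (fun f : ℤ × ℤ => f.1 + f.2) (↑(A m ×ˢ B m) : Set (ℤ × ℤ))

/-- The primitive roots of order `p ^ 2` kill band 1 of the first side, but neither its band 0
nor the second side. -/
def LevelGap (p : ℕ) (A B : Fin 2 → Finset ℤ) : Prop :=
  ∀ ζ : ℂ, IsPrimitiveRoot ζ (p ^ 2) → ∑ a ∈ A 1, ζ ^ a = 0 ∧ ∑ a ∈ A 0, ζ ^ a ≠ 0 ∧
    ∀ m, ∑ b ∈ B m, ζ ^ b ≠ 0

/-- One side: residues `φ` of rows in a group, a finite set of integers per band, and colours. -/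
structure Side (G : Type*) [AddCommGroup G] where
  φ : ℤ →+ G
  A : Fin 2 → Finset ℤ
  v : Fin 2 → ℤ → ℤ

variable {G : Type*} [AddCommGroup G] {k : ℕ}

/-- The coloured translates `W` cover the region `R`: over every point of `R m` every colour
appears exactly once, and no translate covers any other point. -/
def Side.Weak (S : Side G) (W : Set (G × ZMod k)) (R : Fin 2 → Set G) : Prop :=
  ∀ m g d,
    ((∃ a ∈ S.A m, (g - S.φ a, d - (S.v m a : ZMod k)) ∈ W) ↔ g ∈ R m) ∧
    ∀ a ∈ S.A m, ∀ a' ∈ S.A m, (g - S.φ a, d - (S.v m a : ZMod k)) ∈ W →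
      (g - S.φ a', d - (S.v m a' : ZMod k)) ∈ W → a = a'

/-- The translates `X`, each with all colours, cover the region `R`. -/
def Side.Exact (S : Side G) (k : ℕ) (X : Set G) (R : Fin 2 → Set G) : Prop :=
  S.Weak (X ×ˢ (univ : Set (ZMod k))) R

/-- Regions indexed by `ι` partition the group in both bands. -/
def Partition {ι : Type*} (R : ι → Fin 2 → Set G) : Prop :=
  ∀ m g, ∃! i, g ∈ R i m

/-- A partition of one side into single cells, tiled exactly, and pools of units: each unit is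
tiled weakly, and any `l` units of one pool are tiled exactly together. -/
structure Cells (S : Side G) (k : ℕ) where
  Single : Type
  Pool : Type
  l : Pool → ℕ
  size : Pool → ℕ
  regS : Single → Fin 2 → Set G
  regU : (π : Pool) → Fin (size π) → Fin 2 → Set G
  partition : Partition (Sum.elim regS fun u : (π : Pool) × Fin (size π) => regU u.1 u.2)
  single : ∀ i, ∃ X, S.Exact k X (regS i)
  unit : ∀ π u, ∃ W : Set (G × ZMod k), S.Weak W (regU π u)
  group : ∀ π (f : Fin (l π) ↪ Fin (size π)),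
    ∃ X, S.Exact k X fun m => ⋃ i, regU π (f i) m

/-- A 0/1 matrix that glues a pool of `n` units, grouped by `l`, to one of `n'`, grouped by
`l'`: the ones of each column are cut into groups of `l`, the zeros of each row into groups
of `l'`. -/
def Glues (l n l' n' : ℕ) : Prop :=
  ∃ X : Fin n → Fin n' → Bool,
    (∀ j, l ∣ (Finset.univ.filter fun i => X i j = true).card) ∧
    ∀ i, l' ∣ (Finset.univ.filter fun j => X i j = false).card

/-- Interface of the product: two partitioned sides with glueable pools give a system of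
translates. -/
def GlueStep : Prop :=
  ∀ (G H : Type) [AddCommGroup G] [AddCommGroup H] (S : Side G) (T : Side H) (k : ℕ) [NeZero k]
    (C : Cells S k) (D : Cells T k),
    (∀ m, ∀ b ∈ T.A m, S.φ b = 0) → (∀ m, ∀ a ∈ S.A m, T.φ a = 0) →
    (∀ π π', Glues (C.l π) (C.size π) (D.l π') (D.size π')) →
    ∃ B, Sys (spots S.A T.A fun m f => S.v m f.1 + T.v m f.2) B

end Vale.Agent.P043.R2
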