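import Vale.Agent.P043.R2.Defs

/-!
Helper for P043 R2: a cyclic fill realises any row sums with constant column sums; with two column
blocks this glues two pools.
-/

namespace Vale.Agent.P043.R2

open Finset

/-- Row `i` of the fill puts its `x i` ones cyclically after those of the rows before it. -/
def cyc (w : ℕ) (x : ℕ → ℕ) (i j : ℕ) : Bool :=
  decide ((j + w - (∑ a ∈ range i, x a) % w) % w < x i)

theorem cyc_iff {w j s t : ℕ} (hj : j < w) (ht : t < w) :
    (s + t) % w = j ↔ t = (j + w - s % w) % w := by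
  have hw : 0 < w := by omega
  have hs := Nat.mod_lt s hw
  rw [Nat.add_mod, Nat.mod_eq_of_lt ht]
  rcases lt_or_ge (s % w + t) w with h | h
  · rw [Nat.mod_eq_of_lt h]
    constructor
    · intro e
      rw [show j + w - s % w = t + w by omega, Nat.add_mod_right, Nat.mod_eq_of_lt ht]
    · intro e
      rcases lt_or_ge (j + w - s % w) w with h' | h'
      · rw [Nat.mod_eq_of_lt h'] at e; omega
      · rw [Nat.mod_eq_sub_mod h', Nat.mod_eq_of_lt (by omega)] at e; omega
  · rw [Nat.mod_eq_sub_mod h, Nat.mod_eq_of_lt (by omega)]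
    constructor
    · intro e
      rw [Nat.mod_eq_of_lt (show j + w - s % w < w by omega)]; omega
    · intro e
      rcases lt_or_ge (j + w - s % w) w with h' | h'
      · rw [Nat.mod_eq_of_lt h'] at e; omega
      · rw [Nat.mod_eq_sub_mod h', Nat.mod_eq_of_lt (by omega)] at e; omega

/-- The column `j` of the first `k` rows counts the positions below their total congruent to `j`. -/
theorem sum_cyc_col {w : ℕ} {x : ℕ → ℕ} (j : ℕ) (hj : j < w) :
    ∀ k, (∀ i < k, x i ≤ w) →
      ∑ i ∈ range k, (if cyc w x i j then 1 else 0) =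
        ((range (∑ i ∈ range k, x i)).filter fun p => p % w = j).card := by
  intro k
  induction k with
  | zero => simp
  | succ k ih =>
    intro h
    rw [sum_range_succ, ih fun i hi => h i (by omega), sum_range_succ x, card_filter, card_filter,
      sum_range_add _ _ (x k)]
    congr 1
    rw [← card_filter, filter_congr fun t ht =>
      cyc_iff hj (lt_of_lt_of_le (mem_range.1 ht) (h k (by omega))), filter_eq']
    simp only [cyc, decide_eq_true_eq, mem_range]
    split_ifs <;> simp

/-- The row `i` has `x i` ones. -/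
theorem sum_cyc_row {w : ℕ} {x : ℕ → ℕ} (i : ℕ) (hi : x i ≤ w) :
    ∑ j ∈ range w, (if cyc w x i j then 1 else 0) = x i := by
  rw [← card_filter]
  refine Eq.trans ?_ (card_range (x i))
  set s := ∑ a ∈ range i, x a with hs
  refine card_nbij' (fun j => (j + w - s % w) % w) (fun t => (s + t) % w) ?_ ?_ ?_ ?_
  · intro j hj
    simp only [cyc, coe_filter, Set.mem_ofPred_eq, decide_eq_true_eq, mem_range] at hj
    simpa [← hs] using hj.2
  · intro t ht
    simp only [mem_coe, mem_range] at ht
    have hw : 0 < w := by omega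
    have hlt := Nat.mod_lt (s + t) hw
    have := (cyc_iff hlt (lt_of_lt_of_le ht hi)).1 rfl
    simp only [cyc, coe_filter, Set.mem_ofPred_eq, decide_eq_true_eq, mem_range, ← hs]
    exact ⟨hlt, by rw [← this]; exact ht⟩
  · intro j hj
    simp only [coe_filter, Set.mem_ofPred_eq, mem_range] at hj
    exact (cyc_iff hj.1 (Nat.mod_lt _ (by omega))).2 rfl
  · intro t ht
    simp only [mem_coe, mem_range] at ht
    have hw : 0 < w := by omega
    exact ((cyc_iff (Nat.mod_lt _ hw) (lt_of_lt_of_le ht hi)).1 rfl).symm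

/-- A constant column sum. -/
theorem cyc_col_const {w c n : ℕ} {x : ℕ → ℕ} (j : ℕ) (hj : j < w) (hx : ∀ i < n, x i ≤ w)
    (hsum : ∑ i ∈ range n, x i = w * c) :
    ∑ i ∈ range n, (if cyc w x i j then 1 else 0) = c := by
  rw [sum_cyc_col j hj n hx, hsum, card_filter]
  clear hsum hx
  induction c with
  | zero => simp
  | succ c ih =>
    rw [Nat.mul_succ, sum_range_add, ih]
    congr 1
    rw [sum_eq_single_of_mem j (mem_range.2 hj) fun t ht hne => if_neg ?_, if_pos ?_]
    · rw [Nat.mul_add_mod, Nat.mod_eq_of_lt hj]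
    · rw [Nat.mul_add_mod, Nat.mod_eq_of_lt (mem_range.1 ht)]
      exact hne

/-- Two column blocks of widths `w₁`, `w₂` with column sums `c₁`, `c₂`: row `i` gets `x i` ones
in the first and `y i` in the second. -/
theorem glues_of_fill {l n l' n' : ℕ} (w₁ w₂ c₁ c₂ : ℕ) (x y : ℕ → ℕ) (hw : w₁ + w₂ = n')
    (h1 : l ∣ c₁) (h2 : l ∣ c₂) (hrow : ∀ i < n, x i ≤ w₁ ∧ y i ≤ w₂ ∧ l' ∣ n' - (x i + y i))
    (hx : ∑ i ∈ range n, x i = w₁ * c₁) (hy : ∑ i ∈ range n, y i = w₂ * c₂) :
    Glues l n l' n' := by
  let B : ℕ → ℕ → Bool := fun i j => if j < w₁ then cyc w₁ x i j else cyc w₂ y i (j - w₁)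
  refine ⟨fun i j => B i j, fun j => ?_, fun i => ?_⟩
  · have hj := j.isLt
    rw [card_filter, Fin.sum_univ_eq_sum_range (fun i => if B i j = true then 1 else 0) n]
    by_cases h : (j : ℕ) < w₁
    · simp only [B, if_pos h]
      rw [cyc_col_const _ h (fun i hi => (hrow i hi).1) hx]
      exact h1
    · simp only [B, if_neg h]
      rw [cyc_col_const _ (by omega) (fun i hi => (hrow i hi).2.1) hy]
      exact h2
  · obtain ⟨hx', hy', hd⟩ := hrow i i.isLt
    have hones : ∑ j ∈ range n', (if B i j = true then 1 else 0) = x i + y i := by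
      rw [← hw, sum_range_add]
      congr 1
      · refine Eq.trans (sum_congr rfl fun j hj => ?_) (sum_cyc_row (x := x) (i : ℕ) hx')
        simp only [B, if_pos (mem_range.1 hj)]
      · refine Eq.trans (sum_congr rfl fun j _ => ?_) (sum_cyc_row (x := y) (i : ℕ) hy')
        simp only [B, if_neg (show ¬ w₁ + j < w₁ by omega), Nat.add_sub_cancel_left]
    have hsplit := card_filter_add_card_filter_not (s := (univ : Finset (Fin n')))
      (fun j : Fin n' => B i j = true)
    rw [card_filter (fun j : Fin n' => B i j = true),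
      Fin.sum_univ_eq_sum_range (fun j => if B i j = true then 1 else 0) n', hones, card_univ,
      Fintype.card_fin] at hsplit
    simp only [Bool.not_eq_true] at hsplit
    rwa [show (univ.filter fun j : Fin n' => B i j = false).card = n' - (x i + y i) by omega]

theorem sum_getD (α : List ℕ) : ∑ i ∈ range α.length, α.getD i 0 = α.sum := by
  induction α with
  | nil => simp
  | cons a α ih => simp [sum_range_succ', ← ih, add_comm]

/-- A checkable certificate of `Glues`: the column blocks have widths `w₁`, `n' - w₁` and column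
sums `b₁ * l`, `b₂ * l`, and `α`, `β` are the row sums in the two blocks. -/
def fillOK (l n l' n' w₁ b₁ b₂ : ℕ) (α β : List ℕ) : Bool :=
  decide (w₁ ≤ n') && (α.length == n) && (β.length == n) && (α.sum == w₁ * (b₁ * l)) &&
    (β.sum == (n' - w₁) * (b₂ * l)) &&
    (α.zip β).all fun q => decide (q.1 ≤ w₁) && decide (q.2 ≤ n' - w₁) &&
      decide (l' ∣ n' - (q.1 + q.2))

theorem glues_of_fillOK {l n l' n' w₁ b₁ b₂ : ℕ} {α β : List ℕ}
    (h : fillOK l n l' n' w₁ b₁ b₂ α β = true) : Glues l n l' n' := by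
  simp only [fillOK, Bool.and_eq_true, decide_eq_true_eq, beq_iff_eq, List.all_eq_true] at h
  obtain ⟨⟨⟨⟨⟨hw, hα⟩, hβ⟩, hsα⟩, hsβ⟩, hall⟩ := h
  refine glues_of_fill w₁ (n' - w₁) (b₁ * l) (b₂ * l) (fun i => α.getD i 0) (fun i => β.getD i 0)
    (by omega) (dvd_mul_left _ _) (dvd_mul_left _ _) (fun i hi => ?_) ?_ ?_
  · have hmem : (α.getD i 0, β.getD i 0) ∈ α.zip β := by
      have hlen : i < (α.zip β).length := by simp [hα, hβ, hi]
      rw [List.getD_eq_getElem _ _ (by omega), List.getD_eq_getElem _ _ (by omega),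
        ← List.getElem_zip (h := hlen)]
      exact List.getElem_mem hlen
    exact and_assoc.1 (hall _ hmem)
  · rw [← hα, sum_getD, hsα]
  · rw [← hβ, sum_getD, hsβ]

/-- Transposing and complementing exchanges the two pools. -/
theorem Glues.symm {l n l' n' : ℕ} (h : Glues l n l' n') : Glues l' n' l n := by
  obtain ⟨X, h1, h2⟩ := h
  exact ⟨fun j i => !X i j, fun i => by simpa using h2 i, fun j => by simpa using h1 j⟩

/-- Row sums from the block data: totals `r ≡ n' [MOD l']` as even as possible, then each row puts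
as little as it must in the first block and the surplus there is filled greedily. -/
def fillRows (l n l' n' w₁ b₁ b₂ : ℕ) : List ℕ × List ℕ :=
  let r₀ := n' % l'
  let t := (w₁ * (b₁ * l) + (n' - w₁) * (b₂ * l) - n * r₀) / l'
  let r := (List.range n).map fun i => r₀ + l' * (t / n + if i < t % n then 1 else 0)
  let extra := w₁ * (b₁ * l) - (r.map fun a => a - (n' - w₁)).sum
  let step : ℕ × List ℕ → ℕ → ℕ × List ℕ := fun s a =>
    let e := min s.1 (min a w₁ - (a - (n' - w₁)))
    (s.1 - e, (a - (n' - w₁) + e) :: s.2)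
  let α := (r.foldl step (extra, [])).2.reverse
  (α, (r.zip α).map fun q => q.1 - q.2)

/-- A certificate from the block data alone. -/
def fillAuto (l n l' n' w₁ b₁ b₂ : ℕ) : Bool :=
  let q := fillRows l n l' n' w₁ b₁ b₂
  fillOK l n l' n' w₁ b₁ b₂ q.1 q.2

theorem glues_of_fillAuto {l n l' n' w₁ b₁ b₂ : ℕ} (h : fillAuto l n l' n' w₁ b₁ b₂ = true) :
    Glues l n l' n' := glues_of_fillOK h

/-- Witnesses `(w₁, b₁, b₂)` for all pairs of two lists of pools, in the order of the product. -/
def gluesOK (PK PK' : List (ℕ × ℕ)) (W : List (ℕ × ℕ × ℕ)) : Bool :=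
  decide (W.length = (PK ×ˢ PK').length) && ((PK ×ˢ PK').zip W).all fun
    | ((p, q), (w₁, b₁, b₂)) => fillAuto p.1 p.2 q.1 q.2 w₁ b₁ b₂

theorem glues_of_gluesOK {PK PK' : List (ℕ × ℕ)} {W : List (ℕ × ℕ × ℕ)}
    (h : gluesOK PK PK' W = true) : ∀ p ∈ PK, ∀ q ∈ PK', Glues p.1 p.2 q.1 q.2 := by
  simp only [gluesOK, Bool.and_eq_true, decide_eq_true_eq, List.all_eq_true] at h
  intro p hp q hq
  obtain ⟨i, hi, e⟩ := List.getElem_of_mem (show (p, q) ∈ PK ×ˢ PK' from
    List.pair_mem_product.2 ⟨hp, hq⟩)
  have hlen : i < ((PK ×ˢ PK').zip W).length := by rw [List.length_zip, h.1]; simpa using hi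
  have := h.2 _ (List.getElem_mem hlen)
  rw [List.getElem_zip, e] at this
  exact glues_of_fillAuto this

end Vale.Agent.P043.R2
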