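import Vale.Agent.P043.R2.Defs

/-!
Helper for P043 (aperiodic tile of the plane): two partitioned sides with glueable pools give a
system of translates.
-/

namespace Vale.Agent.P043.R2

open Set

variable {G H : Type} [AddCommGroup G] [AddCommGroup H] {k : ℕ}

/-- The colours of a set of translates do not matter. -/
def Colourless (W : Set (G × ZMod k)) : Prop := ∀ y c c', (y, c) ∈ W → (y, c') ∈ W

/-- A box: coloured translates on both sides, one of them exact. -/
structure Box (S : Side G) (T : Side H) (k : ℕ) where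
  first : Bool
  W : Set (G × ZMod k)
  W' : Set (H × ZMod k)
  R : Fin 2 → Set G
  R' : Fin 2 → Set H
  weak : S.Weak W R
  weak' : T.Weak W' R'
  exact1 : first = true → Colourless W
  exact2 : first = false → Colourless W'

/-- The horizontal part of a translate. -/
noncomputable def height (first : Bool) (x : ℤ) : ℝ := if first then 0 else Real.sqrt 2 * x

theorem sys_of_boxes [NeZero k] (S : Side G) (T : Side H) {ι : Type} (b : ι → Box S T k)
    (hST : ∀ m, ∀ y ∈ T.A m, S.φ y = 0) (hTS : ∀ m, ∀ y ∈ S.A m, T.φ y = 0)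
    (hpart : ∀ m g h, ∃! i, g ∈ (b i).R m ∧ h ∈ (b i).R' m) :
    ∃ B, Sys (spots S.A T.A fun m f => S.v m f.1 + T.v m f.2) B := by
  refine ⟨{q | ∃ i, ∃ c x : ℤ, q = (height (b i).first x + (c : ℝ), x) ∧
    (S.φ x, (c : ZMod k)) ∈ (b i).W ∧ (T.φ x, (c : ZMod k)) ∈ (b i).W'}, ?_⟩
  intro m r
  obtain ⟨i, ⟨hg, hh⟩, hi⟩ := hpart m (S.φ r) (T.φ r)
  -- every coverer of the row lives in the box `i`
  have key : ∀ j (c x : ℤ) a y, a ∈ S.A m → y ∈ T.A m → x + (a + y) = r →
      (S.φ x, (c : ZMod k)) ∈ (b j).W → (T.φ x, (c : ZMod k)) ∈ (b j).W' →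
      j = i ∧ ∀ d d' : ZMod k, d = (c : ZMod k) + (S.v m a : ZMod k) →
        d' = (c : ZMod k) + (T.v m y : ZMod k) →
        (S.φ r - S.φ a, d - (S.v m a : ZMod k)) ∈ (b i).W ∧
        (T.φ r - T.φ y, d' - (T.v m y : ZMod k)) ∈ (b i).W' := by
    intro j c x a y ha hy hr hW hW'
    have e1 : S.φ r - S.φ a = S.φ x := by
      rw [← hr, map_add, map_add, hST m y hy]; abel
    have e2 : T.φ r - T.φ y = T.φ x := by
      rw [← hr, map_add, map_add, hTS m a ha]; abel
    have m1 : (S.φ r - S.φ a, (c : ZMod k) + (S.v m a : ZMod k) - (S.v m a : ZMod k)) ∈ (b j).W := by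
      rw [e1, add_sub_cancel_right]; exact hW
    have m2 : (T.φ r - T.φ y, (c : ZMod k) + (T.v m y : ZMod k) - (T.v m y : ZMod k)) ∈
        (b j).W' := by
      rw [e2, add_sub_cancel_right]; exact hW'
    have hj : j = i := hi j ⟨((b j).weak m _ _).1.1 ⟨a, ha, m1⟩, ((b j).weak' m _ _).1.1 ⟨y, hy, m2⟩⟩
    subst hj
    refine ⟨rfl, fun d d' hd hd' => ?_⟩
    subst hd; subst hd'
    exact ⟨m1, m2⟩
  cases hf : (b i).first with
  | true =>
    obtain ⟨a0, ha0, hm0⟩ := ((b i).weak m (S.φ r) 0).1.2 hg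
    have col := (b i).exact1 hf
    have same : ∀ a ∈ S.A m, ∀ c, (S.φ r - S.φ a, c) ∈ (b i).W → a = a0 := fun a ha c hc =>
      ((b i).weak m (S.φ r) 0).2 a ha a0 ha0 (col _ _ _ hc) hm0
    refine ⟨Real.sqrt 2 * a0, ?_, ?_⟩
    · rintro p ⟨j, c, x, rfl, hW, hW'⟩ q hq hr
      simp only [spots, Finset.mem_image, Finset.mem_product] at hq
      obtain ⟨⟨a, y⟩, ⟨ha, hy⟩, rfl⟩ := hq
      obtain ⟨rfl, hd⟩ := key j c x a y ha hy hr hW hW'
      obtain rfl := same a ha _ (hd _ _ rfl rfl).1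
      refine ⟨c + (S.v m a + T.v m y), ?_⟩
      simp only [height, hf, if_true]
      push_cast
      ring
    · intro z
      obtain ⟨y0, hy0, hn0⟩ := ((b i).weak' m (T.φ r) ((z : ZMod k) - (S.v m a0 : ZMod k))).1.2 hh
      refine ⟨((((z - S.v m a0 - T.v m y0 : ℤ) : ℝ), r - a0 - y0),
        (Real.sqrt 2 * a0 + ((S.v m a0 + T.v m y0 : ℤ) : ℝ), a0 + y0)), ?_, ?_⟩
      · refine ⟨⟨i, z - S.v m a0 - T.v m y0, r - a0 - y0, ?_, ?_, ?_⟩, ?_, ?_, ?_⟩
        · simp [height, hf]
        · have : S.φ (r - a0 - y0) = S.φ r - S.φ a0 := by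
            rw [map_sub, map_sub, hST m y0 hy0, sub_zero]
          rw [this]
          exact col _ _ _ hm0
        · have : T.φ (r - a0 - y0) = T.φ r - T.φ y0 := by
            rw [map_sub, map_sub, hTS m a0 ha0, sub_zero]
          rw [this]
          push_cast
          exact hn0
        · exact Finset.mem_image.2 ⟨(a0, y0), Finset.mem_product.2 ⟨ha0, hy0⟩, rfl⟩
        · show r - a0 - y0 + (a0 + y0) = r
          ring
        · push_cast
          ring
      · rintro ⟨p, q⟩ ⟨⟨j, c, x, rfl, hW, hW'⟩, hq, hr, hsum⟩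
        simp only [spots, Finset.mem_image, Finset.mem_product] at hq
        obtain ⟨⟨a, y⟩, ⟨ha, hy⟩, rfl⟩ := hq
        obtain ⟨rfl, hd⟩ := key j c x a y ha hy hr hW hW'
        obtain rfl := same a ha _ (hd _ _ rfl rfl).1
        have hc : c = z - S.v m a - T.v m y := by
          have h' : ((c + (S.v m a + T.v m y) : ℤ) : ℝ) = (z : ℝ) := by
            simp only [height, hf, if_true] at hsum
            push_cast at hsum ⊢
            linarith
          have := Int.cast_injective h'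
          omega
        obtain rfl : y = y0 := ((b j).weak' m (T.φ r) ((z : ZMod k) - (S.v m a : ZMod k))).2 y hy
          y0 hy0 ((hd _ _ rfl (by rw [hc]; push_cast; ring)).2) hn0
        have hx : x = r - a - y := by
          have : x + (a + y) = r := hr
          omega
        subst hc; subst hx
        simp [height, hf]
  | false =>
    obtain ⟨y0, hy0, hn0⟩ := ((b i).weak' m (T.φ r) 0).1.2 hh
    have col := (b i).exact2 hf
    have same : ∀ y ∈ T.A m, ∀ c, (T.φ r - T.φ y, c) ∈ (b i).W' → y = y0 := fun y hy c hc =>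
      ((b i).weak' m (T.φ r) 0).2 y hy y0 hy0 (col _ _ _ hc) hn0
    refine ⟨Real.sqrt 2 * ((r - y0 : ℤ) : ℝ), ?_, ?_⟩
    · rintro p ⟨j, c, x, rfl, hW, hW'⟩ q hq hr
      simp only [spots, Finset.mem_image, Finset.mem_product] at hq
      obtain ⟨⟨a, y⟩, ⟨ha, hy⟩, rfl⟩ := hq
      obtain ⟨rfl, hd⟩ := key j c x a y ha hy hr hW hW'
      obtain rfl := same y hy _ (hd _ _ rfl rfl).2
      refine ⟨c + (S.v m a + T.v m y), ?_⟩
      have hr' : x + (a + y) = r := hr
      subst hr'
      simp only [height, hf, Bool.false_eq_true, if_false]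
      push_cast
      ring
    · intro z
      obtain ⟨a0, ha0, hm0⟩ := ((b i).weak m (S.φ r) ((z : ZMod k) - (T.v m y0 : ZMod k))).1.2 hg
      refine ⟨((Real.sqrt 2 * ((r - a0 - y0 : ℤ) : ℝ) + ((z - S.v m a0 - T.v m y0 : ℤ) : ℝ),
          r - a0 - y0),
        (Real.sqrt 2 * a0 + ((S.v m a0 + T.v m y0 : ℤ) : ℝ), a0 + y0)), ?_, ?_⟩
      · refine ⟨⟨i, z - S.v m a0 - T.v m y0, r - a0 - y0, ?_, ?_, ?_⟩, ?_, ?_, ?_⟩
        · simp [height, hf]
        · have : S.φ (r - a0 - y0) = S.φ r - S.φ a0 := by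
            rw [map_sub, map_sub, hST m y0 hy0, sub_zero]
          rw [this]
          push_cast
          rw [sub_right_comm (z : ZMod k)]
          exact hm0
        · have : T.φ (r - a0 - y0) = T.φ r - T.φ y0 := by
            rw [map_sub, map_sub, hTS m a0 ha0, sub_zero]
          rw [this]
          exact col _ _ _ hn0
        · exact Finset.mem_image.2 ⟨(a0, y0), Finset.mem_product.2 ⟨ha0, hy0⟩, rfl⟩
        · show r - a0 - y0 + (a0 + y0) = r
          ring
        · push_cast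
          ring
      · rintro ⟨p, q⟩ ⟨⟨j, c, x, rfl, hW, hW'⟩, hq, hr, hsum⟩
        simp only [spots, Finset.mem_image, Finset.mem_product] at hq
        obtain ⟨⟨a, y⟩, ⟨ha, hy⟩, rfl⟩ := hq
        obtain ⟨rfl, hd⟩ := key j c x a y ha hy hr hW hW'
        obtain rfl := same y hy _ (hd _ _ rfl rfl).2
        have hr' : x + (a + y) = r := hr
        have hc : c = z - S.v m a - T.v m y := by
          have h' : ((c + (S.v m a + T.v m y) : ℤ) : ℝ) = (z : ℝ) := by
            subst hr'
            simp only [height, hf, Bool.false_eq_true, if_false] at hsum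
            push_cast at hsum ⊢
            linarith
          have := Int.cast_injective h'
          omega
        obtain rfl : a = a0 := ((b j).weak m (S.φ r) ((z : ZMod k) - (T.v m y : ZMod k))).2 a ha
          a0 ha0 ((hd _ _ (by rw [hc]; push_cast; ring) rfl).1) hm0
        have hx : x = r - a - y := by omega
        subst hc; subst hx
        simp [height, hf]

/-- A finite set whose size is a multiple of `l` is cut into groups of `l`. -/
theorem exists_cut {n l : ℕ} (s : Finset (Fin n)) (h : l ∣ s.card) :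
    ∃ (q : ℕ) (f : Fin q → Fin l ↪ Fin n),
      (∀ a b, f a b ∈ s) ∧ ∀ i ∈ s, ∃! a, i ∈ range (f a) := by
  obtain ⟨q, hq⟩ := h
  have e : Fin q × Fin l ≃ s := Fintype.equivOfCardEq (by simp [hq, mul_comm])
  refine ⟨q, fun a => ⟨fun t => (e (a, t)).1, fun t u htu => by
    simpa using congrArg Prod.snd (e.injective (Subtype.ext htu))⟩, fun a t => (e (a, t)).2,
    fun i hi => ?_⟩
  refine ⟨(e.symm ⟨i, hi⟩).1, ⟨(e.symm ⟨i, hi⟩).2, ?_⟩, ?_⟩
  · show ((e ((e.symm ⟨i, hi⟩).1, (e.symm ⟨i, hi⟩).2)) : Fin n) = i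
    rw [Prod.mk.eta, Equiv.apply_symm_apply]
  rintro a ⟨t, ht⟩
  have : (⟨i, hi⟩ : s) = e (a, t) := Subtype.ext ht.symm
  rw [this, Equiv.symm_apply_apply]

theorem glueStep : GlueStep := by
  intro G H _ _ S T k _ C D hST hTS hG
  classical
  let cell := C.Single ⊕ (π : C.Pool) × Fin (C.size π)
  let cell' := D.Single ⊕ (π : D.Pool) × Fin (D.size π)
  let reg : cell → Fin 2 → Set G := Sum.elim C.regS fun u => C.regU u.1 u.2
  let reg' : cell' → Fin 2 → Set H := Sum.elim D.regS fun u => D.regU u.1 u.2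
  -- a good block: a set of cells on each side that carries a box
  let Good : Set cell × Set cell' → Prop := fun P => ∃ B : Box S T k,
    (∀ m, B.R m = ⋃ c ∈ P.1, reg c m) ∧ ∀ m, B.R' m = ⋃ c ∈ P.2, reg' c m
  -- the three kinds of pieces of one side
  have single : ∀ i, ∃ W : Set (G × ZMod k), S.Weak W (C.regS i) ∧ Colourless W := fun i => by
    obtain ⟨X, hX⟩ := C.single i
    exact ⟨X ×ˢ univ, hX, fun _ _ _ h => ⟨h.1, trivial⟩⟩
  have single' : ∀ i, ∃ W : Set (H × ZMod k), T.Weak W (D.regS i) ∧ Colourless W := fun i => by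
    obtain ⟨X, hX⟩ := D.single i
    exact ⟨X ×ˢ univ, hX, fun _ _ _ h => ⟨h.1, trivial⟩⟩
  have cellW : ∀ c : cell', ∃ W : Set (H × ZMod k), T.Weak W (reg' c) := by
    rintro (i | ⟨π, u⟩)
    · obtain ⟨W, hW, -⟩ := single' i; exact ⟨W, hW⟩
    · exact D.unit π u
  have one : ∀ {α β : Type} (R : α → Fin 2 → Set β) (c : α) m,
      R c m = ⋃ c' ∈ ({c} : Set α), R c' m := by intros; simp
  -- groups of units
  have grp : ∀ π (f : Fin (C.l π) ↪ Fin (C.size π)) m, (⋃ i, C.regU π (f i) m) =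
      ⋃ c ∈ range (fun i => (Sum.inr ⟨π, f i⟩ : cell)), reg c m := by
    intro π f m; rw [biUnion_range]; rfl
  have grp' : ∀ π (f : Fin (D.l π) ↪ Fin (D.size π)) m, (⋃ i, D.regU π (f i) m) =
      ⋃ c ∈ range (fun i => (Sum.inr ⟨π, f i⟩ : cell')), reg' c m := by
    intro π f m; rw [biUnion_range]; rfl
  -- the cuts of each matrix
  choose X hcol hrow using hG
  choose qc fc hfc hfc' using fun π π' j => exists_cut _ (hcol π π' j)
  choose qr fr hfr hfr' using fun π π' i => exists_cut _ (hrow π π' i)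
  let blk : cell × cell' → Set cell × Set cell' := fun p =>
    match p with
    | (Sum.inl i, c') => ({Sum.inl i}, {c'})
    | (Sum.inr u, Sum.inl i) => ({Sum.inr u}, {Sum.inl i})
    | (Sum.inr ⟨π, i⟩, Sum.inr ⟨π', j⟩) =>
      if h : X π π' i j = true then
        (range fun t => Sum.inr ⟨π, fc π π' j
          (Classical.choose (hfc' π π' j i (by simp [h])).exists) t⟩, {Sum.inr ⟨π', j⟩})
      else
        ({Sum.inr ⟨π, i⟩}, range fun t => Sum.inr ⟨π', fr π π' i
          (Classical.choose (hfr' π π' i j (by simp [h])).exists) t⟩)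
  have mem : ∀ p, p.1 ∈ (blk p).1 ∧ p.2 ∈ (blk p).2 := by
    rintro ⟨(i | ⟨π, i⟩), c'⟩
    · exact ⟨rfl, rfl⟩
    rcases c' with i' | ⟨π', j⟩
    · exact ⟨rfl, rfl⟩
    by_cases h : X π π' i j = true
    · obtain ⟨t, ht⟩ := Classical.choose_spec (hfc' π π' j i (by simp [h])).exists
      simp only [blk, dif_pos h]
      exact ⟨⟨t, by simp only [ht]⟩, rfl⟩
    · obtain ⟨t, ht⟩ := Classical.choose_spec (hfr' π π' i j (by simp [h])).exists
      simp only [blk, dif_neg h]
      exact ⟨rfl, ⟨t, by simp only [ht]⟩⟩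
  have const : ∀ p d, d.1 ∈ (blk p).1 → d.2 ∈ (blk p).2 → blk d = blk p := by
    rintro ⟨(i | ⟨π, i⟩), c'⟩ ⟨d, d'⟩
    · rintro rfl rfl; rfl
    rcases c' with i' | ⟨π', j⟩
    · rintro rfl rfl; rfl
    by_cases h : X π π' i j = true
    · simp only [blk, dif_pos h]
      rintro ⟨t, rfl⟩ rfl
      simp only
      generalize ha : Classical.choose (hfc' π π' j i (by simp [h])).exists = a
      have hin : X π π' (fc π π' j a t) j = true := by simpa using hfc π π' j a t
      rw [dif_pos hin]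
      have := (hfc' π π' j _ (by simp [hin])).unique
        (Classical.choose_spec (hfc' π π' j _ (by simp [hin])).exists)
        (show fc π π' j a t ∈ range (fc π π' j a) from ⟨t, rfl⟩)
      rw [this]
    · simp only [blk, dif_neg h]
      rintro rfl ⟨t, rfl⟩
      simp only
      generalize ha : Classical.choose (hfr' π π' i j (by simp [h])).exists = a
      have hin : X π π' i (fr π π' i a t) = false := by simpa using hfr π π' i a t
      rw [dif_neg (by simp [hin])]
      have := (hfr' π π' i _ (by simp [hin])).unique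
        (Classical.choose_spec (hfr' π π' i _ (by simp [hin])).exists)
        (show fr π π' i a t ∈ range (fr π π' i a) from ⟨t, rfl⟩)
      rw [this]
  have good : ∀ p, Good (blk p) := by
    rintro ⟨(i | ⟨π, i⟩), c'⟩
    · obtain ⟨W, hW, hc⟩ := single i
      obtain ⟨W', hW'⟩ := cellW c'
      exact ⟨⟨true, W, W', _, _, hW, hW', fun _ => hc, by simp⟩,
        fun m => one reg (Sum.inl i) m, fun m => one reg' c' m⟩
    rcases c' with i' | ⟨π', j⟩
    · obtain ⟨W, hW⟩ := C.unit π i
      obtain ⟨W', hW', hc⟩ := single' i'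
      exact ⟨⟨false, W, W', _, _, hW, hW', by simp, fun _ => hc⟩,
        fun m => one reg (Sum.inr ⟨π, i⟩) m, fun m => one reg' (Sum.inl i') m⟩
    by_cases h : X π π' i j = true
    · simp only [blk, dif_pos h]
      obtain ⟨Y, hY⟩ := C.group π (fc π π' j (Classical.choose (hfc' π π' j i (by simp [h])).exists))
      obtain ⟨W', hW'⟩ := D.unit π' j
      exact ⟨⟨true, Y ×ˢ univ, W', _, _, hY, hW', fun _ _ _ _ h => ⟨h.1, trivial⟩, by simp⟩,
        fun m => grp π _ m, fun m => one reg' (Sum.inr ⟨π', j⟩) m⟩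
    · simp only [blk, dif_neg h]
      obtain ⟨W, hW⟩ := C.unit π i
      obtain ⟨Y, hY⟩ := D.group π' (fr π π' i (Classical.choose (hfr' π π' i j (by simp [h])).exists))
      exact ⟨⟨false, W, Y ×ˢ univ, _, _, hW, hY, by simp, fun _ _ _ _ h => ⟨h.1, trivial⟩⟩,
        fun m => one reg (Sum.inr ⟨π, i⟩) m, fun m => grp' π' _ m⟩
  choose B hB hB' using fun P : ↥(range blk) => show Good P.1 by
    obtain ⟨p, hp⟩ := P.2; rw [← hp]; exact good p
  refine sys_of_boxes S T B hST hTS fun m g h => ?_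
  obtain ⟨c, hc, hcu⟩ := C.partition m g
  obtain ⟨c', hc', hcu'⟩ := D.partition m h
  refine ⟨⟨blk (c, c'), mem_range_self _⟩, ⟨?_, ?_⟩, ?_⟩
  · rw [hB]; exact mem_biUnion (mem (c, c')).1 hc
  · rw [hB']; exact mem_biUnion (mem (c, c')).2 hc'
  rintro ⟨P, p, rfl⟩ ⟨h1, h2⟩
  rw [hB] at h1
  rw [hB'] at h2
  obtain ⟨d, hd, hgd⟩ := mem_iUnion₂.1 h1
  obtain ⟨d', hd', hgd'⟩ := mem_iUnion₂.1 h2
  obtain rfl := hcu d hgd
  obtain rfl := hcu' d' hgd'
  exact Subtype.ext (const p (d, d') hd hd').symm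

end Vale.Agent.P043.R2
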