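import Vale.Agent.P043.R2.Defs

/-!
Helper for P043 R2: the level count. A weight `m ≥ 0` on `ℤ/N` whose convolution with `T 1` is a
binary complement of `S 1`, and which completes `(S 0, T 0)` too, is impossible as soon as some
`p²` is a level of `S 1` only.
-/

namespace Vale.Agent.P043.R2

open Finset Polynomial

/-- The sum of a periodic function over a period is invariant under shifts. -/
lemma sum_shift {M : Type*} [AddCommMonoid M] {N : ℕ} (hN : 0 < N) {φ : ℤ → M}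
    (h : Function.Periodic φ (N : ℤ)) (t : ℤ) :
    ∑ v ∈ Ico (0 : ℤ) N, φ (v + t) = ∑ v ∈ Ico (0 : ℤ) N, φ v := by
  have hN' : (N : ℤ) ≠ 0 := by omega
  have inr : ∀ z : ℤ, z % N ∈ Ico (0 : ℤ) N := fun z =>
    Finset.mem_Ico.2 ⟨Int.emod_nonneg _ hN', Int.emod_lt_of_pos _ (by omega)⟩
  have hmod : ∀ z, φ (z % N) = φ z := fun z => by
    have := (h.zsmul (z / N)) (z % N)
    rw [smul_eq_mul, Int.emod_add_ediv_mul] at this
    exact this.symm
  refine sum_nbij' (fun z => (z + t) % N) (fun z => (z - t) % N) (fun z _ => inr _)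
    (fun z _ => inr _) ?_ ?_ fun z _ => (hmod _).symm
  · intro z hz
    simp only [Finset.mem_Ico] at hz
    rw [sub_eq_add_neg, Int.emod_add_emod, add_neg_cancel_right, Int.emod_eq_of_lt hz.1 hz.2]
  · intro z hz
    simp only [Finset.mem_Ico] at hz
    rw [Int.emod_add_emod, sub_add_cancel, Int.emod_eq_of_lt hz.1 hz.2]

lemma zpow_periodic {N : ℕ} (hN : 0 < N) {ζ : ℂ} (hζ : ζ ^ N = 1) :
    Function.Periodic (fun v : ℤ => ζ ^ v) (N : ℤ) := fun v => by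
  have h0 : ζ ≠ 0 := fun e => by simp [e, hN.ne'] at hζ
  simp [zpow_add₀ h0, hζ]

lemma sum_zpow_eq_zero {N : ℕ} (hN : 0 < N) {ζ : ℂ} (hζ : ζ ^ N = 1) (h1 : ζ ≠ 1) :
    ∑ v ∈ Ico (0 : ℤ) N, ζ ^ v = 0 := by
  have h0 : ζ ≠ 0 := fun e => by simp [e, hN.ne'] at hζ
  have h := sum_shift hN (zpow_periodic hN hζ) 1
  simp only [zpow_add₀ h0, zpow_one, ← sum_mul] at h
  by_contra hne
  exact h1 ((mul_eq_left₀ hne).1 h)

/-- The transform of a convolution. -/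
lemma mask_mul {N : ℕ} (hN : 0 < N) {f : ℤ → ℕ} (hf : Function.Periodic f (N : ℤ)) (S : Finset ℤ)
    {ζ : ℂ} (hζ : ζ ^ N = 1) :
    ∑ v ∈ Ico (0 : ℤ) N, ((∑ s ∈ S, f (v - s) : ℕ) : ℂ) * ζ ^ v =
      (∑ s ∈ S, ζ ^ s) * ∑ v ∈ Ico (0 : ℤ) N, (f v : ℂ) * ζ ^ v := by
  have h0 : ζ ≠ 0 := fun e => by simp [e, hN.ne'] at hζ
  simp only [Nat.cast_sum, sum_mul]
  rw [sum_comm]
  refine sum_congr rfl fun s _ => ?_
  have hper : Function.Periodic (fun v : ℤ => (f v : ℂ) * ζ ^ v) (N : ℤ) := fun v => by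
    simp [hf v, zpow_add₀ h0, hζ]
  have hper' : Function.Periodic (fun v : ℤ => ζ ^ s * ((f v : ℂ) * ζ ^ v)) (N : ℤ) :=
    hper.comp fun x => ζ ^ s * x
  rw [mul_sum]
  refine Eq.trans ?_ (sum_shift hN hper' (-s))
  refine sum_congr rfl fun v _ => ?_
  rw [← sub_eq_add_neg, show v = s + (v - s) by ring, zpow_add₀ h0]
  ring_nf

/-- If each of some cyclotomic polynomials of `p`-power order divides `P`, the value of `P` at one
is divisible by `p` to their number. -/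
lemma pow_card_dvd_eval_one {p : ℕ} [Fact p.Prime] (J : Finset ℕ) (hJ : ∀ j ∈ J, 1 ≤ j) {P : ℤ[X]}
    (h : ∀ j ∈ J, cyclotomic (p ^ j) ℤ ∣ P) : (p : ℤ) ^ J.card ∣ P.eval 1 := by
  have hp : p.Prime := Fact.out
  have hd : ∏ j ∈ J, cyclotomic (p ^ j) ℤ ∣ P := by
    refine (Polynomial.map_dvd_map (Int.castRingHom ℚ) Int.cast_injective
      (monic_prod_of_monic _ _ fun j _ => cyclotomic.monic _ ℤ)).1 ?_
    rw [Polynomial.map_prod]
    refine Finset.prod_dvd_of_coprime (fun i _ j _ hij => ?_) fun j hj =>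
      Polynomial.map_dvd _ (h j hj)
    simp only [Function.onFun, map_cyclotomic]
    exact cyclotomic.isCoprime_rat fun e => hij (Nat.pow_right_injective hp.two_le e)
  have := eval_dvd (x := (1 : ℤ)) hd
  rwa [eval_prod, prod_eq_pow_card (b := (p : ℤ)) fun j hj => by
    obtain ⟨i, rfl⟩ : ∃ i, j = i + 1 := ⟨j - 1, by have := hJ j hj; omega⟩
    rw [eval_one_cyclotomic_prime_pow]] at this

theorem no_factor {N k p : ℕ} (hp : p.Prime) (hN : 0 < N) (hk : 0 < k) (hpN : p ^ 2 ∣ N)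
    {m : ℤ → ℕ} (hm : Function.Periodic m (N : ℤ)) {S T : Fin 2 → Finset ℤ} (hgap : LevelGap p S T)
    (hsum : ∀ j r, ∑ s ∈ S j, ∑ t ∈ T j, m (r - s - t) = k)
    (h01 : ∀ v, ∑ t ∈ T 1, m (v - t) = 0 ∨ ∑ t ∈ T 1, m (v - t) = k) : False := by
  classical
  have := Fact.mk hp
  set M : Fin 2 → ℤ → ℕ := fun j v => ∑ t ∈ T j, m (v - t) with hM
  have hMp : ∀ j, Function.Periodic (M j) (N : ℤ) := fun j v => by
    refine sum_congr rfl fun t _ => ?_
    rw [add_sub_right_comm, hm]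
  have hk' : (k : ℂ) ≠ 0 := Nat.cast_ne_zero.2 hk.ne'
  set g : ℤ → ℕ := fun v => if M 1 v = 0 then 0 else 1 with hg
  have hgM : ∀ v, M 1 v = k * g v := fun v => by
    simp only [hg]
    rcases h01 v with h | h <;> simp [hM, h, hk.ne']
  have hgp : Function.Periodic g (N : ℤ) := fun v => by simp only [hg, hMp 1 v]
  have hgs : ∀ r, ∑ s ∈ S 1, g (r - s) = 1 := fun r => by
    have := hsum 1 r
    simp only [show ∀ s, ∑ t ∈ T 1, m (r - s - t) = M 1 (r - s) from fun s => rfl, hgM,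
      ← mul_sum] at this
    exact (Nat.mul_eq_left hk.ne').1 this
  have hcard : (S 1).card * ∑ v ∈ Ico (0 : ℤ) N, g v = N := by
    have h1 : ∑ v ∈ Ico (0 : ℤ) N, ∑ s ∈ S 1, g (v - s) = N := by simp [hgs]
    rw [sum_comm] at h1
    rwa [sum_congr rfl fun s _ => (sum_congr rfl fun v _ => by rw [sub_eq_add_neg]).trans
      (sum_shift hN hgp (-s)), sum_const, smul_eq_mul] at h1
  have hprod : ∀ ζ : ℂ, ζ ^ N = 1 → ζ ≠ 1 →
      (∑ s ∈ S 1, ζ ^ s) * ∑ v ∈ Ico (0 : ℤ) N, (g v : ℂ) * ζ ^ v = 0 := fun ζ hζ h1 => by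
    rw [← mask_mul hN hgp _ hζ]
    simp only [hgs, Nat.cast_one, one_mul]
    exact sum_zpow_eq_zero hN hζ h1
  -- both factors vanish at the primitive `p²`-th roots
  have hboth : ∀ ζ : ℂ, IsPrimitiveRoot ζ (p ^ 2) →
      ∑ s ∈ S 1, ζ ^ s = 0 ∧ ∑ v ∈ Ico (0 : ℤ) N, (g v : ℂ) * ζ ^ v = 0 := by
    intro ζ hζ
    obtain ⟨hS1, hS0, hT⟩ := hgap ζ hζ
    have hζN : ζ ^ N = 1 := (hζ.pow_eq_one_iff_dvd N).2 hpN
    have h1 : ζ ≠ 1 := hζ.ne_one (Nat.one_lt_pow two_ne_zero hp.one_lt)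
    have e0 := mask_mul hN (hMp 0) (S 0) hζN
    rw [sum_congr rfl fun v _ => by rw [show ∑ s ∈ S 0, M 0 (v - s) = k from hsum 0 v],
      ← mul_sum, sum_zpow_eq_zero hN hζN h1, mul_zero] at e0
    have e0' := (mul_eq_zero.1 e0.symm).resolve_left hS0
    rw [mask_mul hN hm _ hζN] at e0'
    have e1 := mask_mul hN hm (T 1) hζN
    rw [(mul_eq_zero.1 e0').resolve_left (hT 0), mul_zero] at e1
    simp only [show ∀ v, ∑ t ∈ T 1, m (v - t) = M 1 v from fun v => rfl, hgM, Nat.cast_mul,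
      mul_assoc, ← mul_sum] at e1
    exact ⟨hS1, (mul_eq_zero.1 e1).resolve_left hk'⟩
  set a : ℤ[X] := ∑ s ∈ S 1, X ^ (s % N).toNat with ha
  set b : ℤ[X] := ∑ v ∈ Ico (0 : ℤ) N, C (g v : ℤ) * X ^ v.toNat with hb
  have hN' : (N : ℤ) ≠ 0 := by omega
  have evA : ∀ ζ : ℂ, ζ ^ N = 1 → aeval ζ a = ∑ s ∈ S 1, ζ ^ s := fun ζ hζ => by
    simp only [ha, map_sum, map_pow, aeval_X]
    refine sum_congr rfl fun s _ => ?_
    rw [← zpow_natCast, Int.toNat_of_nonneg (Int.emod_nonneg _ hN')]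
    have := ((zpow_periodic hN hζ).zsmul (s / N)) (s % N)
    rw [smul_eq_mul, Int.emod_add_ediv_mul] at this
    exact this.symm
  have evB : ∀ ζ : ℂ, aeval ζ b = ∑ v ∈ Ico (0 : ℤ) N, (g v : ℂ) * ζ ^ v := fun ζ => by
    simp only [hb, map_sum, map_mul, map_pow, aeval_X, aeval_C]
    refine sum_congr rfl fun v hv => ?_
    rw [← zpow_natCast ζ, Int.toNat_of_nonneg (Finset.mem_Ico.1 hv).1]
    simp
  set α := N.factorization p with hα
  have hα2 : 2 ≤ α := (hp.pow_dvd_iff_le_factorization hN.ne').1 hpN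
  have hdvd : ∀ j ∈ Icc 1 α, (cyclotomic (p ^ j) ℤ ∣ a ∨ cyclotomic (p ^ j) ℤ ∣ b) ∧
      (j = 2 → cyclotomic (p ^ j) ℤ ∣ a ∧ cyclotomic (p ^ j) ℤ ∣ b) := by
    intro j hj
    rw [Finset.mem_Icc] at hj
    have hpos : 0 < p ^ j := pow_pos hp.pos j
    set ζ := Complex.exp (2 * Real.pi * Complex.I / ((p ^ j : ℕ) : ℂ)) with hζd
    have hζ : IsPrimitiveRoot ζ (p ^ j) := Complex.isPrimitiveRoot_exp _ hpos.ne'
    have hζN : ζ ^ N = 1 :=
      (hζ.pow_eq_one_iff_dvd N).2 ((hp.pow_dvd_iff_le_factorization hN.ne').2 hj.2)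
    have h1 : ζ ≠ 1 := hζ.ne_one (Nat.one_lt_pow (by omega) hp.one_lt)
    have dv : ∀ P : ℤ[X], aeval ζ P = 0 → cyclotomic (p ^ j) ℤ ∣ P := fun P hP => by
      rw [cyclotomic_eq_minpoly hζ hpos]
      exact minpoly.isIntegrallyClosed_dvd (hζ.isIntegral hpos) hP
    refine ⟨?_, fun e => ?_⟩
    · rcases mul_eq_zero.1 (hprod ζ hζN h1) with h | h
      · exact Or.inl (dv _ ((evA ζ hζN).trans h))
      · exact Or.inr (dv _ ((evB ζ).trans h))
    · subst e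
      exact ⟨dv _ ((evA ζ hζN).trans (hboth ζ hζ).1), dv _ ((evB ζ).trans (hboth ζ hζ).2)⟩
  set Ja := (Icc 1 α).filter fun j => cyclotomic (p ^ j) ℤ ∣ a with hJa
  set Jb := (Icc 1 α).filter fun j => cyclotomic (p ^ j) ℤ ∣ b with hJb
  have hcount : α + 1 ≤ Ja.card + Jb.card := by
    rw [← card_union_add_card_inter]
    have hu : Ja ∪ Jb = Icc 1 α := by
      rw [hJa, hJb, ← filter_or]
      exact filter_true_of_mem fun j hj => (hdvd j hj).1
    have h2 : 2 ∈ Icc 1 α := Finset.mem_Icc.2 ⟨by omega, hα2⟩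
    have hi : 0 < (Ja ∩ Jb).card := card_pos.2 ⟨2, by
      simp [hJa, hJb, h2, (hdvd 2 h2).2 rfl]⟩
    rw [hu, Nat.card_Icc]
    omega
  have hd := mul_dvd_mul
    (pow_card_dvd_eval_one Ja (fun j hj => (Finset.mem_Icc.1 (mem_filter.1 hj).1).1)
      fun j hj => (mem_filter.1 hj).2)
    (pow_card_dvd_eval_one Jb (fun j hj => (Finset.mem_Icc.1 (mem_filter.1 hj).1).1)
      fun j hj => (mem_filter.1 hj).2)
  rw [← pow_add, ha, hb] at hd
  simp only [eval_finsetSum, eval_pow, eval_X, one_pow, eval_mul, eval_C, mul_one, sum_const,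
    nsmul_eq_mul] at hd
  have hd' : p ^ (Ja.card + Jb.card) ∣ N := by
    rw [← hcard]
    exact_mod_cast hd
  have := (hp.pow_dvd_iff_le_factorization hN.ne').1 hd'
  omega

end Vale.Agent.P043.R2
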