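import Vale.Agent.P043.R2.TreeDefs
import Vale.Agent.P043.R2.Cells

/-!
Helper for P043 (aperiodic tile of the plane): a checked tree gives a table.
-/

namespace Vale.Agent.P043.R2

/-- If two triples differ in one place, they agree at the others. -/
theorem off_axis {f g : ℕ → ℕ}
    (h : (if f 0 = g 0 then 0 else 1) + (if f 1 = g 1 then 0 else 1) +
      (if f 2 = g 2 then 0 else 1) = 1) {i : ℕ} (hi : i < 3) (hne : f i ≠ g i) :
    ∀ j, j < 3 → j ≠ i → f j = g j := by
  intro j hj hji
  obtain rfl | rfl | rfl : i = 0 ∨ i = 1 ∨ i = 2 := by omega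
  all_goals
    obtain rfl | rfl | rfl : j = 0 ∨ j = 1 ∨ j = 2 := by omega
  all_goals first
    | exact absurd rfl hji
    | (by_contra hd
       rw [if_neg hne, if_neg hd] at h
       omega)

namespace Tree

variable (t : Tree)

/-- The node of the residues `x`. -/
def nodeAt (x : Low t.mods) : ℕ :=
  t.inv ((x 0).val + t.p0 * ((x 1).val + t.p1 * (x 2).val))

/-- The weight at `x`. -/
def weight (x : Low t.mods) : ℕ :=
  if t.node (x 4).val (x 5).val (t.prim (x 3).val ((x 5).val == t.z0)) = t.nodeAt x then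
    t.w1 (x 3).val ((x 5).val == t.z0)
  else if t.node (x 4).val (x 5).val (t.sec (x 3).val ((x 5).val == t.z0)) = t.nodeAt x then
    t.w2 (x 3).val ((x 5).val == t.z0)
  else 0

/-- The room of the cell at `x`. -/
def share (x : Low t.mods) : ℕ :=
  if t.node (x 4).val (x 5).val (t.prim (x 3).val ((x 5).val == t.z0)) = t.nodeAt x then
    t.cap (x 3).val ((x 5).val == t.z0) (t.prim (x 3).val ((x 5).val == t.z0))
  else if t.node (x 4).val (x 5).val (t.sec (x 3).val ((x 5).val == t.z0)) = t.nodeAt x then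
    t.cap (x 3).val ((x 5).val == t.z0) (t.sec (x 3).val ((x 5).val == t.z0))
  else 0

theorem place_node {y z L : ℕ} (hy : y < t.q1) (hz : z < t.q2) (hL : L < t.m + 2) :
    t.place (t.node y z L) = (L, if L = 0 then 0 else y, if L < 2 then 0 else z) := by
  match L with
  | 0 => simp [node, place]
  | 1 =>
    simp only [node, place]
    rw [if_neg (by omega), if_pos (by omega)]
    simp [hy]
  | j + 2 =>
    have hj : j < t.m := by omega
    have hn : t.node y z (j + 2) = 1 + t.q1 + (y * t.q2 + z) * t.m + j := rfl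
    have h1 : t.node y z (j + 2) - 1 - t.q1 = j + t.m * (y * t.q2 + z) := by
      rw [hn, mul_comm t.m]; omega
    rw [place, if_neg (by omega), if_neg (by omega), h1, Nat.add_mul_mod_self_left,
      Nat.mod_eq_of_lt hj, Nat.add_mul_div_left _ _ (by omega : 0 < t.m), Nat.div_eq_of_lt hj,
      Nat.zero_add, mul_comm y, Nat.add_comm (t.q2 * y), Nat.add_mul_mod_self_left,
      Nat.mod_eq_of_lt hz, Nat.add_mul_div_left _ _ (by omega : 0 < t.q2), Nat.div_eq_of_lt hz,
      Nat.zero_add]
    simp

theorem node_inj {y z L L' : ℕ} (hy : y < t.q1) (hz : z < t.q2) (hL : L < t.m + 2)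
    (hL' : L' < t.m + 2) (h : t.node y z L = t.node y z L') : L = L' := by
  have := congrArg t.place h
  rw [t.place_node hy hz hL, t.place_node hy hz hL'] at this
  exact congrArg Prod.fst this

theorem node_lt {y z L : ℕ} (hP : t.P = 1 + t.q1 + t.q1 * t.q2 * t.m) (hy : y < t.q1)
    (hz : z < t.q2) (hL : L < t.m + 2) : t.node y z L < t.P := by
  rw [hP]
  match L with
  | 0 => simp [node]
  | 1 => simp only [node]; omega
  | j + 2 =>
    simp only [node]
    have h1 : y * t.q2 + z + 1 ≤ t.q1 * t.q2 := by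
      have : (y + 1) * t.q2 ≤ t.q1 * t.q2 := Nat.mul_le_mul_right _ hy
      rw [Nat.add_mul] at this; omega
    have h2 : (y * t.q2 + z + 1) * t.m ≤ t.q1 * t.q2 * t.m := Nat.mul_le_mul_right _ h1
    rw [Nat.add_mul] at h2
    omega

theorem node_place {n : ℕ} (hP : t.P = 1 + t.q1 + t.q1 * t.q2 * t.m) (hn : n < t.P) (hm : 0 < t.m)
    (hq : 0 < t.q2) :
    (t.place n).1 < t.m + 2 ∧ (t.place n).2.1 < t.q1 + 1 ∧ (t.place n).2.2 < t.q2 ∧
      ((t.place n).1 ≠ 0 → (t.place n).2.1 < t.q1) ∧
      t.node (t.place n).2.1 (t.place n).2.2 (t.place n).1 = n := by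
  unfold place
  by_cases h0 : n = 0
  · rw [if_pos h0]
    refine ⟨by simp, by simp, hq, by simp, ?_⟩
    simp [node, h0]
  rw [if_neg h0]
  by_cases h1 : n < 1 + t.q1
  · rw [if_pos h1]
    refine ⟨?_, ?_, hq, fun _ => ?_, ?_⟩
    · show 1 < t.m + 2; omega
    · show n - 1 < t.q1 + 1; omega
    · show n - 1 < t.q1; omega
    · show t.node (n - 1) 0 1 = n
      simp only [node]; omega
  rw [if_neg h1]
  simp only
  set w := n - 1 - t.q1 with hw
  have hlt : w < t.q1 * t.q2 * t.m := by omega
  have h2 : w / t.m < t.q1 * t.q2 := Nat.div_lt_iff_lt_mul hm |>.2 hlt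
  have h3 : w / t.m / t.q2 < t.q1 := Nat.div_lt_iff_lt_mul hq |>.2 h2
  refine ⟨by have := Nat.mod_lt w hm; omega, by omega, Nat.mod_lt _ hq, fun _ => h3, ?_⟩
  simp only [node]
  rw [Nat.div_add_mod' (w / t.m) t.q2]
  have := Nat.div_add_mod' w t.m
  omega

theorem digit_code (x : Low t.mods) :
    let c := (x 0).val + t.p0 * ((x 1).val + t.p1 * (x 2).val)
    c < t.P ∧ t.digit c 0 = (x 0).val ∧ t.digit c 1 = (x 1).val ∧ t.digit c 2 = (x 2).val := by
  intro c
  have ha : (x 0).val < t.p0 := (x 0).isLt
  have hb : (x 1).val < t.p1 := (x 1).isLt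
  have hc : (x 2).val < t.p2 := (x 2).isLt
  have hw : (x 1).val + t.p1 * (x 2).val < t.p1 * t.p2 := by
    have : t.p1 * ((x 2).val + 1) ≤ t.p1 * t.p2 := Nat.mul_le_mul_left _ hc
    rw [Nat.mul_succ] at this; omega
  have h0 : c < t.P := by
    have : t.p0 * ((x 1).val + t.p1 * (x 2).val + 1) ≤ t.p0 * (t.p1 * t.p2) := Nat.mul_le_mul_left _ hw
    rw [Nat.mul_succ, ← mul_assoc] at this
    show c < t.p0 * t.p1 * t.p2
    omega
  refine ⟨h0, ?_, ?_, ?_⟩
  · simp only [digit, c]
    rw [Nat.add_mul_mod_self_left, Nat.mod_eq_of_lt ha]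
  · simp only [digit, c]
    rw [Nat.add_mul_div_left _ _ (by omega : 0 < t.p0), Nat.div_eq_of_lt ha, Nat.zero_add,
      Nat.add_mul_mod_self_left, Nat.mod_eq_of_lt hb]
  · simp only [digit, c]
    rw [← Nat.div_div_eq_div_mul, Nat.add_mul_div_left _ _ (by omega : 0 < t.p0),
      Nat.div_eq_of_lt ha, Nat.zero_add, Nat.add_mul_div_left _ _ (by omega : 0 < t.p1),
      Nat.div_eq_of_lt hb, Nat.zero_add, Nat.mod_eq_of_lt hc]

theorem code_digit {c : ℕ} (hc : c < t.P) :
    t.digit c 0 + t.p0 * (t.digit c 1 + t.p1 * t.digit c 2) = c := by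
  simp only [digit]
  have h2 : c / (t.p0 * t.p1) < t.p2 :=
    Nat.div_lt_of_lt_mul (by simpa [P] using hc)
  rw [Nat.mod_eq_of_lt h2, ← Nat.div_div_eq_div_mul, Nat.mod_add_div, Nat.mod_add_div]

variable [∀ i, NeZero (t.mods i)]

theorem p_pos : 0 < t.p0 ∧ 0 < t.p1 ∧ 0 < t.p2 :=
  ⟨NeZero.pos (t.mods 0), NeZero.pos (t.mods 1), NeZero.pos (t.mods 2)⟩

theorem digit_lt (c : ℕ) (i : Fin 6) (hi : i.val < 3) : t.digit c i.val < t.mods i := by
  obtain ⟨h0, h1, h2⟩ := t.p_pos
  fin_cases i <;> first
    | exact Nat.mod_lt _ h0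
    | exact Nat.mod_lt _ h1
    | exact Nat.mod_lt _ h2
    | exact absurd hi (by decide)

theorem mods_low (i : Fin 6) (hi : i.val < 3) : t.mods i = t.mod3 i.val := by
  fin_cases i <;> first | rfl | exact absurd hi (by decide)

theorem axisOf_lt (c d : ℕ) : t.axisOf c d < 3 := by
  unfold axisOf; split_ifs <;> omega

theorem side_low {i : Fin 6} : side i = 0 ↔ i.val < 3 := by
  unfold side; split_ifs with h <;> simp [h]

theorem prod_side :
    (∏ i : Fin 6, if side i = 0 then t.mods i else 1) = t.P ∧
      (∏ i : Fin 6, if side i = 1 then t.mods i else 1) = t.Q := by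
  constructor <;> simp [Fin.prod_univ_six, side, mods, P, Q]

/-- A point is the node at code `c` exactly when it has the digits of `c`. -/
theorem nodeAt_iff (hlab : ∀ i < t.P, t.lab i < t.P ∧ t.inv (t.lab i) = i) (x : Low t.mods)
    {n : ℕ} (hn : n < t.P) :
    n = t.nodeAt x ↔ ∀ j : Fin 6, j.val < 3 → (x j).val = t.digit (t.lab n) j.val := by
  obtain ⟨hc, h0, h1, h2⟩ := t.digit_code x
  set c := (x 0).val + t.p0 * ((x 1).val + t.p1 * (x 2).val) with hcdef
  constructor
  · intro h
    -- the labels are onto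
    have hsurj : ∃ i < t.P, t.lab i = c := by
      have hinj : Function.Injective (fun i : Fin t.P => (⟨t.lab i.val, (hlab _ i.isLt).1⟩ : Fin t.P)) :=
        fun i j hij => Fin.ext (by
          have := congrArg (fun v : Fin t.P => t.inv v.val) hij
          simpa [(hlab _ i.isLt).2, (hlab _ j.isLt).2] using this)
      obtain ⟨i, hi⟩ := (Finite.injective_iff_surjective.1 hinj) ⟨c, hc⟩
      exact ⟨i, i.isLt, congrArg Fin.val hi⟩
    obtain ⟨i, hi, hic⟩ := hsurj
    have : n = i := by
      rw [h, nodeAt, ← hcdef, ← hic, (hlab i hi).2]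
    subst this
    intro j hj
    rw [hic]
    fin_cases j <;> first
      | exact h0.symm
      | exact h1.symm
      | exact h2.symm
      | exact absurd hj (by decide)
  · intro h
    have e : c = t.lab n := by
      rw [hcdef, ← t.code_digit (hlab n hn).1, h 0 (by decide), h 1 (by decide), h 2 (by decide)]
      rfl
    rw [nodeAt, ← hcdef, e, (hlab n hn).2]

/-- The band 0 tori fit. -/
theorem fit0 (h : t.ok = true) (x : Low t.mods) :
    (t.table 0 (cls 0 x)).fixed 0 x + (t.table 0 (cls 0 x)).slots 0 x = t.weight x ∧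
      (t.table 0 (cls 0 x)).slots 0 x ≤ t.share x := by
  simp only [ok, Bool.and_eq_true] at h
  obtain ⟨⟨hlabels, hcells⟩, -⟩ := h
  simp only [labelsOK, Bool.and_eq_true, decide_eq_true_eq, List.all_eq_true, List.mem_range] at hlabels
  obtain ⟨⟨hm, hz0, hP⟩, hlab⟩ := hlabels
  have hX : (x 3).val < t.q3 := (x 3).isLt
  have hY : (x 4).val < t.q1 := (x 4).isLt
  have hZ : (x 5).val < t.q2 := (x 5).isLt
  have htab : t.table 0 (cls 0 x) = t.torus0 (x 3).val (x 4).val (x 5).val := rfl
  rw [htab]
  simp only [cellsOK, List.all_eq_true, List.mem_range] at hcells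
  have hb := hcells _ hX ((x 5).val == t.z0) (by cases ((x 5).val == t.z0) <;> simp)
  unfold weight share
  simp only [Bool.and_eq_true, decide_eq_true_eq] at hb
  obtain ⟨⟨⟨hp1, hp2⟩, hw⟩, hif⟩ := hb
  set b := ((x 5).val == t.z0) with hbdef
  set L1 := t.prim (x 3).val b with hL1
  set L2 := t.sec (x 3).val b with hL2
  have bound : ∀ L, t.placeOK (x 3).val b L = true → L < t.m + 2 := by
    intro L hL; unfold placeOK at hL
    split_ifs at hL with e1 e2
    · omega
    · omega
    · simp at hL; omega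
  set n1 := t.node (x 4).val (x 5).val L1 with hn1
  set n2 := t.node (x 4).val (x 5).val L2 with hn2
  have hn1' : n1 < t.P := t.node_lt hP hY hZ (bound _ hp1)
  have hn2' : n2 < t.P := t.node_lt hP hY hZ (bound _ hp2)
  set c := t.lab n1 with hc
  set d := t.lab n2 with hd
  set i := t.axisOf c d with hi
  have hi3 : i < 3 := t.axisOf_lt c d
  set T := t.torus0 (x 3).val (x 4).val (x 5).val with hT
  have hTaxis : T.axis.val = i := by show i % 3 = i; omega
  have hTl : t.mods T.axis = t.mod3 i := by rw [t.mods_low T.axis (by omega), hTaxis]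
  -- membership in the line, and the node on it
  have online : T.OnLine 0 x ↔ ∀ j : Fin 6, j.val < 3 → j.val ≠ i → (x j).val = t.digit c j.val := by
    constructor
    · intro hh j hj hji
      have := hh j (side_low.2 hj) (fun e => hji (by rw [e, hTaxis]))
      rw [this]
      show (if j.val < 3 then t.digit c j.val else 0) = _
      rw [if_pos hj]
    · intro hh j hj hji
      show (x j).val = if j.val < 3 then t.digit c j.val else 0
      rw [if_pos (side_low.1 hj)]
      exact hh j (side_low.1 hj) fun e => hji (Fin.ext (by rw [hTaxis]; exact e))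
  have hv : ∀ (j : Fin 6), j.val = i → (x j).val = (x T.axis).val := by
    intro j hj
    have : j = T.axis := Fin.ext (by rw [hTaxis]; exact hj)
    rw [this]
  have at1 : n1 = t.nodeAt x ↔ T.OnLine 0 x ∧ (x T.axis).val = t.digit c i := by
    rw [t.nodeAt_iff hlab x hn1', online]
    constructor
    · intro hh
      exact ⟨fun j hj _ => hh j hj, by rw [hh T.axis (by omega), hTaxis]⟩
    · rintro ⟨hh, he⟩ j hj
      by_cases e : j.val = i
      · rw [hv j e, he, e]
      · exact hh j hj e
  by_cases hs : L1 = L2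
  · -- one node
    rw [if_pos hs] at hif
    simp only [fullOK, decide_eq_true_eq] at hif
    obtain ⟨hpools, hw2, hf⟩ := hif
    have hcd : c = d := by rw [hc, hd, hn1, hn2, hs]
    have hi0 : i = 0 := by rw [hi, hcd, axisOf]; simp
    have hcert : (t.cert0 (x 3).val b i).pools = [] := by rw [hi0]; exact List.eq_nil_of_length_eq_zero hpools
    have hslots : T.slots 0 x = 0 := by
      unfold Torus.slots
      split_ifs
      · show (List.map _ ((t.cert0 (x 3).val b i).pools.map _)).sum = 0
        rw [hcert]; rfl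
      · rfl
    rw [hslots]
    refine ⟨?_, Nat.zero_le _⟩
    rw [Nat.add_zero]
    have hn12 : n2 = n1 := by rw [hn1, hn2, hs]
    rw [hn12]
    unfold Torus.fixed
    by_cases hA : n1 = t.nodeAt x
    · obtain ⟨h1, h2⟩ := at1.1 hA
      rw [if_pos hA, if_pos h1]
      refine (congrArg (· * _) hTl).trans ?_
      show t.mod3 i * (if (x T.axis).val = t.digit c i then (t.cert0 (x 3).val b i).f1 else _) = _
      rw [if_pos h2, hi0]
      exact hf
    · rw [if_neg hA, if_neg hA]
      by_cases h1 : T.OnLine 0 x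
      · rw [if_pos h1]
        show _ * (if (x T.axis).val = t.digit c i then _ else if (x T.axis).val = t.digit d i then _ else 0) = _
        rw [if_neg fun e => hA (at1.2 ⟨h1, e⟩), if_neg fun e => hA (at1.2 ⟨h1, by rw [e, hcd]⟩),
          Nat.mul_zero]
      · rw [if_neg h1]
  · -- two nodes on one line
    rw [if_neg hs] at hif
    simp only [List.all_eq_true, List.mem_range, Bool.or_eq_true] at hif
    have he : t.edgeOK (x 3).val b (x 4).val (x 5).val = true := by
      rcases hif _ hY _ hZ with e | e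
      · simp [hbdef] at e
      · exact e
    simp only [edgeOK, Bool.and_eq_true, decide_eq_true_eq, cellCertOK, List.all_eq_true] at he
    obtain ⟨⟨hne, hone⟩, ⟨⟨⟨hle, hs1⟩, hs2⟩, hc1⟩, hc2⟩ := he
    have hn12 : n1 ≠ n2 := fun e => hs (t.node_inj hY hZ (bound _ hp1) (bound _ hp2) e)
    have off : ∀ j, j < 3 → j ≠ i → t.digit c j = t.digit d j :=
      off_axis hone hi3 hne
    have at2 : n2 = t.nodeAt x ↔ T.OnLine 0 x ∧ (x T.axis).val = t.digit d i := by
      rw [t.nodeAt_iff hlab x hn2', online]
      constructor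
      · intro hh
        exact ⟨fun j hj e => by rw [hh j hj, off _ hj e], by rw [hh T.axis (by omega), hTaxis]⟩
      · rintro ⟨hh, he⟩ j hj
        by_cases e : j.val = i
        · rw [hv j e, he, e]
        · rw [hh j hj e, off _ hj e]
    have hfix : T.fix (x T.axis).val = if (x T.axis).val = t.digit c i then (t.cert0 (x 3).val b i).f1
        else if (x T.axis).val = t.digit d i then (t.cert0 (x 3).val b i).f2 else 0 := rfl
    have hcount : ∀ u : ℕ, ((T.pools.map fun q => q.1 * q.2.count u).sum) =
        if u = t.digit c i then ((t.cert0 (x 3).val b i).pools.map fun q => q.1 * q.2).sum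
        else if u = t.digit d i then
          ((t.cert0 (x 3).val b i).pools.map fun q => q.1 * (t.mod3 i - q.2)).sum else 0 := by
      intro u
      show (List.map _ ((t.cert0 (x 3).val b i).pools.map _)).sum = _
      rw [List.map_map]
      have ct : ∀ (a a' n n' : ℕ), List.count u (List.replicate n a ++ List.replicate n' a') =
          (if u = a then n else 0) + (if u = a' then n' else 0) := by
        intro a a' n n'
        rw [List.count_append, List.count_replicate, List.count_replicate]
        simp only [beq_iff_eq, @eq_comm ℕ a u, @eq_comm ℕ a' u]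
      split_ifs with e1 e2
      · refine congrArg List.sum (List.map_congr_left fun q _ => ?_)
        show q.1 * List.count u (List.replicate q.2 (t.digit c i) ++ List.replicate _ (t.digit d i)) = _
        rw [ct, if_pos e1, if_neg fun e => hne (e1.symm.trans e), Nat.add_zero]
      · refine congrArg List.sum (List.map_congr_left fun q _ => ?_)
        show q.1 * List.count u (List.replicate q.2 (t.digit c i) ++ List.replicate _ (t.digit d i)) = _
        rw [ct, if_neg e1, if_pos e2, Nat.zero_add]
      · refine List.sum_eq_zero fun v hv => ?_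
        obtain ⟨q, -, rfl⟩ := List.mem_map.1 hv
        show q.1 * List.count u (List.replicate q.2 (t.digit c i) ++ List.replicate _ (t.digit d i)) = _
        rw [ct, if_neg e1, if_neg e2, Nat.zero_add, Nat.mul_zero]
    unfold Torus.fixed Torus.slots
    by_cases h1 : T.OnLine 0 x
    · rw [if_pos h1, if_pos h1, hfix, hcount, show t.mods T.axis * _ = t.mod3 i * _ from congrArg (· * _) hTl]
      by_cases hA : n1 = t.nodeAt x
      · obtain ⟨-, h2⟩ := at1.1 hA
        rw [if_pos h2, if_pos h2, if_pos hA, if_pos hA]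
        exact ⟨by rw [Nat.add_comm]; exact hs1, hc1⟩
      · have e1 : (x T.axis).val ≠ t.digit c i := fun e => hA (at1.2 ⟨h1, e⟩)
        rw [if_neg e1, if_neg e1, if_neg hA, if_neg hA]
        by_cases hB : n2 = t.nodeAt x
        · obtain ⟨-, h2⟩ := at2.1 hB
          rw [if_pos h2, if_pos h2, if_pos hB, if_pos hB]
          exact ⟨by rw [Nat.add_comm]; exact hs2, hc2⟩
        · have e2 : (x T.axis).val ≠ t.digit d i := fun e => hB (at2.2 ⟨h1, e⟩)
          rw [if_neg e2, if_neg e2, if_neg hB, if_neg hB]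
          simp
    · rw [if_neg h1, if_neg h1, if_neg fun e => h1 (at1.1 e).1, if_neg fun e => h1 (at2.1 e).1,
        if_neg fun e => h1 (at1.1 e).1, if_neg fun e => h1 (at2.1 e).1]
      simp

/-- What the checks give at a node. -/
theorem node_facts (h : t.ok = true) {c : ℕ} (hc : c < t.P) :
    let p := t.place (t.inv c)
    p.1 < t.m + 2 ∧ (p.1 ≠ 0 → p.2.1 < t.q1) ∧ p.2.2 < t.q2 ∧
      (p.1 = 0 → p.2.1 = 0) ∧ t.node p.2.1 p.2.2 p.1 = t.inv c ∧
      t.nodeOK p.1 (if p.1 < 2 then true else p.2.2 == t.z0) = true := by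
  intro p
  simp only [ok, Bool.and_eq_true] at h
  obtain ⟨⟨hlabels, -⟩, hnodes⟩ := h
  simp only [labelsOK, Bool.and_eq_true, decide_eq_true_eq, List.all_eq_true, List.mem_range] at hlabels
  obtain ⟨⟨hm, hz0, hP⟩, hlab⟩ := hlabels
  have hinj : Function.Injective (fun i : Fin t.P => (⟨t.lab i.val, (hlab _ i.isLt).1⟩ : Fin t.P)) :=
    fun i j hij => Fin.ext (by
      have := congrArg (fun v : Fin t.P => t.inv v.val) hij
      simpa [(hlab _ i.isLt).2, (hlab _ j.isLt).2] using this)
  obtain ⟨i, hi⟩ := (Finite.injective_iff_surjective.1 hinj) ⟨c, hc⟩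
  have hn : t.inv c < t.P := by
    have e : t.lab i.val = c := congrArg Fin.val hi
    rw [← e, (hlab _ i.isLt).2]; exact i.isLt
  obtain ⟨h1, -, h3, h4, h5⟩ := t.node_place hP hn hm (by omega)
  have h0 : p.1 = 0 → p.2.1 = 0 := by
    intro e
    show (t.place (t.inv c)).2.1 = 0
    unfold place at *
    split_ifs <;> simp_all [p, place]
  refine ⟨h1, h4, h3, h0, h5, ?_⟩
  simp only [nodesOK, Bool.and_eq_true, List.all_eq_true, List.mem_range] at hnodes
  obtain ⟨⟨ha, hb⟩, hj⟩ := hnodes
  rcases Nat.lt_or_ge p.1 2 with e | e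
  · rw [if_pos e]
    rcases (by omega : p.1 = 0 ∨ p.1 = 1) with e' | e' <;> rw [e'] <;> assumption
  · have hp' : p.1 < t.m + 2 := h1
    rw [if_neg (by omega)]
    have := hj (p.1 - 2) (by omega)
    rw [show p.1 - 2 + 2 = p.1 by omega] at this
    cases (p.2.2 == t.z0)
    · exact this.2
    · exact this.1

/-- The band 1 tori fit. -/
theorem fit1 (h : t.ok = true) (x : Low t.mods) :
    (t.table 1 (cls 1 x)).fixed 1 x + (t.table 1 (cls 1 x)).slots 1 x = t.weight x ∧
      (t.table 1 (cls 1 x)).slots 1 x + t.share x ≤ t.weight x := by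
  obtain ⟨hcode, -⟩ := t.digit_code x
  obtain ⟨hL, hy', hz', hy0, hnode, hok⟩ := t.node_facts h hcode
  simp only [ok, Bool.and_eq_true] at h
  obtain ⟨⟨hlabels, hcells⟩, -⟩ := h
  simp only [labelsOK, Bool.and_eq_true, decide_eq_true_eq] at hlabels
  obtain ⟨⟨hm, hz0, hP⟩, -⟩ := hlabels
  have hX : (x 3).val < t.q3 := (x 3).isLt
  have hY : (x 4).val < t.q1 := (x 4).isLt
  have hZ : (x 5).val < t.q2 := (x 5).isLt
  set n := t.inv ((x 0).val + t.p0 * ((x 1).val + t.p1 * (x 2).val)) with hn
  have hnx : t.nodeAt x = n := rfl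
  set p := t.place n with hp
  set b := ((x 5).val == t.z0) with hb
  have htab : t.table 1 (cls 1 x) =
      t.torus1 ((x 0).val + t.p0 * ((x 1).val + t.p1 * (x 2).val)) := rfl
  rw [htab]
  set T := t.torus1 ((x 0).val + t.p0 * ((x 1).val + t.p1 * (x 2).val)) with hT
  simp only [cellsOK, List.all_eq_true, List.mem_range, Bool.and_eq_true, decide_eq_true_eq] at hcells
  obtain ⟨⟨⟨hp1, hp2⟩, -⟩, -⟩ := hcells _ hX b (by cases b <;> simp)
  have bound : ∀ L, t.placeOK (x 3).val b L = true → L < t.m + 2 := by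
    intro L hL; unfold placeOK at hL
    split_ifs at hL with e1 e2
    · omega
    · omega
    · simp at hL; omega
  -- the three kinds of lines
  have hbase : ∀ j : ℕ, T.base 3 = (if p.1 = 0 then t.q3 - 1 else 0) ∧ T.base 4 = p.2.1 ∧
      T.base 5 = (if p.1 = 0 then t.z0 else p.2.2) := fun _ => ⟨rfl, rfl, rfl⟩
  obtain ⟨hb3, hb4, hb5⟩ := hbase 0
  have hax : T.axis = if p.1 = 0 then 4 else if p.1 = 1 then 5 else 3 := rfl
  have online : T.OnLine 1 x ↔ (p.1 = 0 ∧ (x 3).val = t.q3 - 1 ∧ b = true) ∨
      (p.1 = 1 ∧ (x 3).val = 0 ∧ (x 4).val = p.2.1) ∨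
      (2 ≤ p.1 ∧ (x 4).val = p.2.1 ∧ (x 5).val = p.2.2) := by
    constructor
    · intro hh
      rcases (by omega : p.1 = 0 ∨ p.1 = 1 ∨ 2 ≤ p.1) with e | e | e
      · refine Or.inl ⟨e, ?_, ?_⟩
        · rw [hh 3 rfl (by rw [hax, if_pos e]; decide), hb3, if_pos e]
        · rw [hb, hh 5 rfl (by rw [hax, if_pos e]; decide), hb5,
            if_pos e]
          simp
      · refine Or.inr (Or.inl ⟨e, ?_, ?_⟩)
        · rw [hh 3 rfl (by rw [hax, if_neg (by omega), if_pos e]; decide),
            hb3, if_neg (by omega)]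
        · rw [hh 4 rfl (by rw [hax, if_neg (by omega), if_pos e]; decide),
            hb4]
      · refine Or.inr (Or.inr ⟨e, ?_, ?_⟩)
        · rw [hh 4 rfl (by rw [hax, if_neg (by omega), if_neg (by omega)]; decide),
            hb4]
        · rw [hh 5 rfl (by rw [hax, if_neg (by omega), if_neg (by omega)]; decide),
            hb5, if_neg (by omega)]
    · intro hh i hi hne
      have : i = 3 ∨ i = 4 ∨ i = 5 := by revert hi; fin_cases i <;> decide
      rw [hax] at hne
      rcases hh with ⟨e, h3, h5⟩ | ⟨e, h3, h4⟩ | ⟨e, h4, h5⟩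
      · rw [if_pos e] at hne
        rw [hb, beq_iff_eq] at h5
        rcases this with rfl | rfl | rfl
        · rw [hb3, if_pos e]; exact h3
        · exact absurd rfl hne
        · rw [hb5, if_pos e]; exact h5
      · rw [if_neg (by omega), if_pos e] at hne
        rcases this with rfl | rfl | rfl
        · rw [hb3, if_neg (by omega)]; exact h3
        · rw [hb4]; exact h4
        · exact absurd rfl hne
      · rw [if_neg (by omega), if_neg (by omega)] at hne
        rcases this with rfl | rfl | rfl
        · exact absurd rfl hne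
        · rw [hb4]; exact h4
        · rw [hb5, if_neg (by omega)]; exact h5
  unfold weight share
  rw [hnx, ← hb]
  unfold Torus.fixed Torus.slots
  by_cases hon : T.OnLine 1 x
  · -- the point is on the line of the node
    rw [if_pos hon, if_pos hon]
    have same : t.node (x 4).val (x 5).val p.1 = n := by
      refine Eq.trans ?_ hnode
      rcases online.1 hon with ⟨e, -, -⟩ | ⟨e, -, h4⟩ | ⟨-, h4, h5⟩
      · rw [e]; rfl
      · rw [e, h4]; rfl
      · rw [h4, h5]
    have eqv : ∀ L, L < t.m + 2 → (t.node (x 4).val (x 5).val L = n ↔ p.1 = L) := fun L hL' =>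
      ⟨fun e => t.node_inj hY hZ hL hL' (same.trans e.symm), fun e => e ▸ same⟩
    have hwt : (if t.node (x 4).val (x 5).val (t.prim (x 3).val b) = n then t.w1 (x 3).val b
        else if t.node (x 4).val (x 5).val (t.sec (x 3).val b) = n then t.w2 (x 3).val b else 0) =
        t.wt (x 3).val b p.1 := by
      rw [if_congr (eqv _ (bound _ hp1)) rfl (if_congr (eqv _ (bound _ hp2)) rfl rfl)]
      rfl
    have hsh : (if t.node (x 4).val (x 5).val (t.prim (x 3).val b) = n then
          t.cap (x 3).val b (t.prim (x 3).val b)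
        else if t.node (x 4).val (x 5).val (t.sec (x 3).val b) = n then
          t.cap (x 3).val b (t.sec (x 3).val b) else 0) ≤ t.cap (x 3).val b p.1 := by
      rw [if_congr (eqv _ (bound _ hp1)) rfl (if_congr (eqv _ (bound _ hp2)) rfl rfl)]
      split_ifs with e1 e2
      · rw [e1]
      · rw [e2]
      · exact Nat.zero_le _
    rw [hwt]
    have key : ∀ u, u < t.mods T.axis → (x T.axis).val = u →
        t.at' p.1 (if p.1 < 2 then true else p.2.2 == t.z0) u = ((x 3).val, b) := by
      intro u _ hu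
      subst hu
      rcases online.1 hon with ⟨e, h3, h5⟩ | ⟨e, h3, -⟩ | ⟨e, -, h5⟩
      · simp [at', e, h3, h5]
      · have ha : T.axis = 5 := by rw [hax, if_neg (by omega), if_pos e]
        rw [at', if_neg (by omega), if_pos e, h3, ha]
      · have ha : T.axis = 3 := by rw [hax, if_neg (by omega), if_neg (by omega)]
        rw [at', if_neg (by omega), if_neg (by omega), if_neg (by omega), ha, hb, h5]
    have hlen : t.mods T.axis = if p.1 = 0 then t.q1 else if p.1 = 1 then t.q2 else t.q3 := by
      rw [hax]; split_ifs <;> rfl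
    have hu : (x T.axis).val < t.mods T.axis := (x T.axis).isLt
    simp only [nodeOK, Bool.and_eq_true, List.all_eq_true, List.mem_range, decide_eq_true_eq] at hok
    have hok2 := hok.2 (x T.axis).val (by rw [← hlen]; exact hu)
    rw [key _ hu rfl] at hok2
    obtain ⟨e1, e2⟩ := hok2
    constructor
    · refine Eq.trans ?_ e1
      rw [Nat.add_comm]
      congr 1
      exact congrArg (· * _) hlen
    · exact le_trans (Nat.add_le_add_left hsh _) e2
  · -- off the line the node is not in the cell
    rw [if_neg hon, if_neg hon]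
    have none : ∀ L, t.placeOK (x 3).val b L = true → t.node (x 4).val (x 5).val L ≠ n := by
      intro L hL' e
      have hbL := bound _ hL'
      have := t.place_node hY hZ hbL
      rw [e, ← hp] at this
      refine hon (online.2 ?_)
      rw [this]
      unfold placeOK at hL'
      rcases (by omega : L = 0 ∨ L = 1 ∨ 2 ≤ L) with rfl | rfl | hL2
      · simp at hL'
        exact Or.inl ⟨rfl, by omega, hL'.2⟩
      · rw [if_neg (by omega), if_pos rfl, decide_eq_true_eq] at hL'
        exact Or.inr (Or.inl ⟨rfl, hL', rfl⟩)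
      · refine Or.inr (Or.inr ⟨hL2, ?_, ?_⟩)
        · simp [show L ≠ 0 by omega]
        · simp [show ¬L < 2 by omega]
    rw [if_neg (none _ hp1), if_neg (none _ hp2), if_neg (none _ hp1), if_neg (none _ hp2)]
    simp

theorem side_high {i : Fin 6} : side i = 1 ↔ 3 ≤ i.val := by
  unfold side; split_ifs with h <;> simp <;> omega

omit [∀ i, NeZero (t.mods i)] in
theorem sum_map_range (f : ℕ → ℕ) (n : ℕ) : ((List.range n).map f).sum = ∑ u ∈ Finset.range n, f u := by
  induction n with
  | zero => rfl
  | succ n ih => rw [List.range_succ, List.map_append, List.sum_append, ih, Finset.sum_range_succ]; simp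

/-- A checked tree gives a table. -/
theorem tableOK (h : t.ok = true) : TableOK t.mods t.table := by
  have h' := h
  simp only [ok, Bool.and_eq_true] at h'
  obtain ⟨⟨hlabels, hcells⟩, -⟩ := h'
  simp only [labelsOK, Bool.and_eq_true, decide_eq_true_eq, List.all_eq_true, List.mem_range] at hlabels
  obtain ⟨⟨hm, hz0, hP⟩, hlab⟩ := hlabels
  simp only [cellsOK, List.all_eq_true, List.mem_range, Bool.and_eq_true, decide_eq_true_eq] at hcells
  have cell : ∀ c : Low t.mods, ∃ i, i < 3 ∧
      let b := (c 5).val == t.z0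
      let C := t.cert0 (c 3).val b i
      let u := t.mod3 i
      i = t.axisOf (t.lab (t.node (c 4).val (c 5).val (t.prim (c 3).val b)))
        (t.lab (t.node (c 4).val (c 5).val (t.sec (c 3).val b))) ∧
      (∀ q ∈ C.pools, q.2 ≤ u) ∧
      u * ((C.pools.map Prod.fst).sum + ∑ z ∈ Finset.range u,
        (t.torus0 (c 3).val (c 4).val (c 5).val).fix z) = t.P := by
    intro c
    have hX : (c 3).val < t.q3 := (c 3).isLt
    have hY : (c 4).val < t.q1 := (c 4).isLt
    have hZ : (c 5).val < t.q2 := (c 5).isLt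
    set b := (c 5).val == t.z0 with hbdef
    obtain ⟨⟨⟨-, -⟩, hw⟩, hif⟩ := hcells _ hX b (by cases b <;> simp)
    set L1 := t.prim (c 3).val b with hL1
    set L2 := t.sec (c 3).val b with hL2
    set u1 := t.lab (t.node (c 4).val (c 5).val L1) with hu1
    set u2 := t.lab (t.node (c 4).val (c 5).val L2) with hu2
    refine ⟨t.axisOf u1 u2, t.axisOf_lt _ _, rfl, ?_⟩
    have fixeq : ∀ z, (t.torus0 (c 3).val (c 4).val (c 5).val).fix z =
        if z = t.digit u1 (t.axisOf u1 u2) then (t.cert0 (c 3).val b (t.axisOf u1 u2)).f1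
        else if z = t.digit u2 (t.axisOf u1 u2) then (t.cert0 (c 3).val b (t.axisOf u1 u2)).f2
        else 0 := fun _ => rfl
    have hdig : ∀ u, t.digit u (t.axisOf u1 u2) < t.mod3 (t.axisOf u1 u2) := by
      intro u
      obtain ⟨a0, a1, a2⟩ := t.p_pos
      have := t.axisOf_lt u1 u2
      obtain e | e | e : t.axisOf u1 u2 = 0 ∨ t.axisOf u1 u2 = 1 ∨ t.axisOf u1 u2 = 2 := by omega
      all_goals rw [e]
      · exact Nat.mod_lt _ a0
      · exact Nat.mod_lt _ a1
      · exact Nat.mod_lt _ a2
    simp only [fixeq]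
    by_cases hs : L1 = L2
    · rw [if_pos hs] at hif
      simp only [fullOK, decide_eq_true_eq] at hif
      obtain ⟨hp, hw2, hf⟩ := hif
      have e12 : u2 = u1 := by rw [hu1, hu2, hs]
      rw [e12]
      have hi : t.axisOf u1 u1 = 0 := by simp [axisOf]
      rw [hi]
      rw [e12, hi] at hdig
      simp only [List.eq_nil_of_length_eq_zero hp]
      refine ⟨by simp, ?_⟩
      rw [Finset.sum_eq_single_of_mem (t.digit u1 0) (Finset.mem_range.2 (hdig u1))
        (fun z _ hz => by rw [if_neg hz, if_neg hz]), if_pos rfl]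
      show t.p0 * (0 + _) = t.P
      rw [Nat.zero_add, hf]; omega
    · rw [if_neg hs] at hif
      simp only [List.all_eq_true, List.mem_range, Bool.or_eq_true] at hif
      have he : t.edgeOK (c 3).val b (c 4).val (c 5).val = true := by
        rcases hif _ hY _ hZ with e | e
        · simp [hbdef] at e
        · exact e
      simp only [edgeOK, Bool.and_eq_true, decide_eq_true_eq, cellCertOK, List.all_eq_true] at he
      obtain ⟨⟨hne, -⟩, ⟨⟨⟨hle, hs1⟩, hs2⟩, -⟩, -⟩ := he
      refine ⟨hle, ?_⟩
      rw [Finset.sum_eq_add_of_mem (t.digit u1 (t.axisOf u1 u2)) (t.digit u2 (t.axisOf u1 u2))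
        (Finset.mem_range.2 (hdig u1)) (Finset.mem_range.2 (hdig u2)) hne
        (fun z _ hz => by rw [if_neg hz.1, if_neg hz.2]), if_pos rfl, if_neg (Ne.symm hne), if_pos rfl]
      have split : ((t.cert0 (c 3).val b (t.axisOf u1 u2)).pools.map fun q => q.1 * q.2).sum +
          ((t.cert0 (c 3).val b (t.axisOf u1 u2)).pools.map fun q =>
            q.1 * (t.mod3 (t.axisOf u1 u2) - q.2)).sum =
          t.mod3 (t.axisOf u1 u2) * ((t.cert0 (c 3).val b (t.axisOf u1 u2)).pools.map Prod.fst).sum := by
        rw [← List.sum_map_add, ← List.sum_map_mul_left]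
        refine congrArg List.sum (List.map_congr_left fun q hq => ?_)
        have hq' : q.2 ≤ t.mod3 (t.axisOf u1 u2) := hle q hq
        rw [← Nat.mul_add, Nat.add_sub_cancel' hq', Nat.mul_comm]
      have a1 : ((t.cert0 (c 3).val b (t.axisOf u1 u2)).pools.map fun q => q.1 * q.2).sum +
          t.mod3 (t.axisOf u1 u2) * (t.cert0 (c 3).val b (t.axisOf u1 u2)).f1 = t.w1 (c 3).val b := hs1
      have a2 : ((t.cert0 (c 3).val b (t.axisOf u1 u2)).pools.map fun q =>
            q.1 * (t.mod3 (t.axisOf u1 u2) - q.2)).sum +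
          t.mod3 (t.axisOf u1 u2) * (t.cert0 (c 3).val b (t.axisOf u1 u2)).f2 = t.w2 (c 3).val b := hs2
      rw [Nat.mul_add, Nat.mul_add, ← split]
      omega
  have hnode : ∀ c : Low t.mods, _ := fun c => t.node_facts h (t.digit_code c).1
  refine ⟨?_, ?_, ?_, ?_, fun x => ?_, fun x => ?_⟩
  · intro m c _
    obtain rfl | rfl : m = 0 ∨ m = 1 := by omega
    · obtain ⟨i, hi, e, -⟩ := cell c
      refine side_low.2 ?_
      show t.axisOf _ _ % 3 < 3
      omega
    · refine side_high.2 ?_
      show 3 ≤ (if (t.place _).1 = 0 then (4 : Fin 6) else if (t.place _).1 = 1 then 5 else 3).val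
      split_ifs <;> decide
  · intro m c _ j
    obtain rfl | rfl : m = 0 ∨ m = 1 := by omega
    · show (if j.val < 3 then t.digit _ j.val else 0) < _
      split_ifs with hj
      · exact t.digit_lt _ j hj
      · exact NeZero.pos _
    · obtain ⟨-, hy, hz, hy0, -⟩ := hnode c
      have hq1 : 0 < t.q1 := NeZero.pos (t.mods 4)
      have hq3 : 0 < t.q3 := NeZero.pos (t.mods 3)
      show (if j = 3 then _ else if j = 4 then _ else if j = 5 then _ else 0) < _
      split_ifs with e3 e30 e4 e5 e50
      · subst e3; show t.q3 - 1 < t.q3; omega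
      · subst e3; exact hq3
      · subst e4; show _ < t.q1
        by_cases e0 : (t.place (t.inv ((c 0).val + t.p0 * ((c 1).val + t.p1 * (c 2).val)))).1 = 0
        · rw [hy0 e0]; exact hq1
        · exact hy e0
      · subst e5; exact hz0
      · subst e5; exact hz
      · exact NeZero.pos _
  · intro m c _ q hq
    obtain rfl | rfl : m = 0 ∨ m = 1 := by omega
    · obtain ⟨i, hi, e, hle, -⟩ := cell c
      obtain ⟨q', hq', rfl⟩ := List.mem_map.1 hq
      have hax : t.mods (t.table 0 c).axis = t.mod3 i := by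
        rw [t.mods_low _ (by show t.axisOf _ _ % 3 < 3; omega)]
        show t.mod3 (t.axisOf _ _ % 3) = _
        rw [← e, Nat.mod_eq_of_lt hi]
      have hq2 := hle q' (e ▸ hq')
      refine ⟨?_, fun z hz => ?_⟩
      · show List.length (List.replicate q'.2 _ ++ List.replicate (t.mod3 _ - q'.2) _) = t.mods (t.table 0 c).axis
        rw [hax, List.length_append, List.length_replicate, List.length_replicate, ← e]
        omega
      · show z < t.mods (t.table 0 c).axis
        rw [hax]
        obtain ⟨a0, a1, a2⟩ := t.p_pos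
        have hz' : ∃ d, z = t.digit d i := by
          change z ∈ List.replicate _ _ ++ List.replicate _ _ at hz
          rw [List.mem_append] at hz
          rcases hz with hz | hz <;> rw [List.eq_of_mem_replicate hz, ← e] <;> exact ⟨_, rfl⟩
        obtain ⟨d, rfl⟩ := hz'
        obtain rfl | rfl | rfl : i = 0 ∨ i = 1 ∨ i = 2 := by omega
        · exact Nat.mod_lt _ a0
        · exact Nat.mod_lt _ a1
        · exact Nat.mod_lt _ a2
    · obtain ⟨-, -, -, -, -, hok⟩ := hnode c
      simp only [nodeOK, Bool.and_eq_true, List.all_eq_true, decide_eq_true_eq] at hok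
      have hlen : t.mods (t.table 1 c).axis =
          if (t.place (t.inv ((c 0).val + t.p0 * ((c 1).val + t.p1 * (c 2).val)))).1 = 0 then t.q1
          else if (t.place (t.inv ((c 0).val + t.p0 * ((c 1).val + t.p1 * (c 2).val)))).1 = 1 then t.q2
          else t.q3 := by
        show t.mods (if _ then (4 : Fin 6) else if _ then 5 else 3) = _
        split_ifs <;> rfl
      show q.2.length = t.mods (t.table 1 c).axis ∧ ∀ z ∈ q.2, z < t.mods (t.table 1 c).axis
      rw [hlen]
      exact hok.1.1 q hq
  · intro m c _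
    obtain rfl | rfl : m = 0 ∨ m = 1 := by omega
    · obtain ⟨i, hi, e, -, hsum⟩ := cell c
      have hax : t.mods (t.table 0 c).axis = t.mod3 i := by
        rw [t.mods_low _ (by show t.axisOf _ _ % 3 < 3; omega)]
        show t.mod3 (t.axisOf _ _ % 3) = _
        rw [← e, Nat.mod_eq_of_lt hi]
      show t.mods (t.table 0 c).axis * _ = _
      rw [t.prod_side.1, ← hsum, hax]
      congr 1
      congr 1
      show ((List.map _ (t.cert0 _ _ (t.axisOf _ _)).pools).map Prod.fst).sum = _
      rw [List.map_map, ← e]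
      rfl
    · obtain ⟨-, -, -, -, -, hok⟩ := hnode c
      simp only [nodeOK, Bool.and_eq_true, List.all_eq_true, decide_eq_true_eq] at hok
      have hlen : t.mods (t.table 1 c).axis =
          if (t.place (t.inv ((c 0).val + t.p0 * ((c 1).val + t.p1 * (c 2).val)))).1 = 0 then t.q1
          else if (t.place (t.inv ((c 0).val + t.p0 * ((c 1).val + t.p1 * (c 2).val)))).1 = 1 then t.q2
          else t.q3 := by
        show t.mods (if _ then (4 : Fin 6) else if _ then 5 else 3) = _
        split_ifs <;> rfl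
      show t.mods (t.table 1 c).axis * _ = _
      rw [t.prod_side.2, ← hok.1.2, hlen, sum_map_range]
      congr 1
  · obtain ⟨h0, -⟩ := t.fit0 h x
    obtain ⟨h1, -⟩ := t.fit1 h x
    rw [h0, h1]
  · obtain ⟨-, h0⟩ := t.fit0 h x
    obtain ⟨h1, h1'⟩ := t.fit1 h x
    omega

/-- The pools of a checked tree have the listed sizes. -/
theorem sizes (h : t.ok = true) {PK : List (ℕ × ℕ)} (hs : t.sizesOK PK = true) :
    ∀ m c, cls m c = c → ∀ q ∈ (t.table m c).pools, (t.mods (t.table m c).axis, q.1) ∈ PK := by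
  simp only [sizesOK, Bool.and_eq_true, List.all_eq_true, List.mem_range, List.contains_iff_mem] at hs
  intro m c _ q hq
  obtain rfl | rfl : m = 0 ∨ m = 1 := by omega
  · obtain ⟨q', hq', rfl⟩ := List.mem_map.1 hq
    have hi := t.axisOf_lt (t.lab (t.node (c 4).val (c 5).val (t.prim (c 3).val ((c 5).val == t.z0))))
      (t.lab (t.node (c 4).val (c 5).val (t.sec (c 3).val ((c 5).val == t.z0))))
    have := hs.1 (c 3).val (c 3).isLt ((c 5).val == t.z0) (by cases ((c 5).val == t.z0) <;> simp) _
      hi q' hq'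
    show (t.mods (t.table 0 c).axis, q'.1) ∈ PK
    rw [t.mods_low _ (by show t.axisOf _ _ % 3 < 3; omega)]
    show (t.mod3 (t.axisOf _ _ % 3), q'.1) ∈ PK
    rw [Nat.mod_eq_of_lt hi]
    exact this
  · obtain ⟨hL, -⟩ := t.node_facts h (t.digit_code c).1
    have := hs.2 _ hL (if (t.place (t.inv ((c 0).val + t.p0 * ((c 1).val + t.p1 * (c 2).val)))).1 < 2
      then true else (t.place (t.inv ((c 0).val + t.p0 * ((c 1).val + t.p1 * (c 2).val)))).2.2 == t.z0)
      (by split_ifs <;> simp [em]) q hq
    show (t.mods (if _ then (4 : Fin 6) else if _ then 5 else 3), q.1) ∈ PK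
    split_ifs at this ⊢ <;> exact this

end Tree

end Vale.Agent.P043.R2
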