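import Vale.Agent.P043.R2.Reduce
import Vale.Agent.P043.R2.Tree
import Vale.Agent.P043.R2.Data.Pairs

/-!
Helper for P043: an aperiodic tile of the plane, from the two checked sides.
-/

namespace Vale.Agent.P043.R2

open MeasureTheory

local instance instNeZeroA : ∀ i, NeZero (SideA.tree.mods i) := fun i => ⟨by fin_cases i <;> decide⟩

local instance instNeZeroB : ∀ i, NeZero (SideB.tree.mods i) := fun i => ⟨by fin_cases i <;> decide⟩

theorem exists_aperiodic :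
    ∃ Ω : Set (Fin 2 → ℝ), MeasurableSet Ω ∧ Bornology.IsBounded Ω ∧ 0 < volume Ω ∧
      (∃ T : Set (Fin 2 → ℝ), (∀ᵐ x, ∃ a ∈ T, x - a ∈ Ω) ∧
        ∀ a ∈ T, ∀ b ∈ T, a ≠ b → volume ({x | x - a ∈ Ω} ∩ {x | x - b ∈ Ω}) = 0) ∧
      ∀ T : Set (Fin 2 → ℝ),
        ((∀ᵐ x, ∃ a ∈ T, x - a ∈ Ω) ∧
          ∀ a ∈ T, ∀ b ∈ T, a ≠ b → volume ({x | x - a ∈ Ω} ∩ {x | x - b ∈ Ω}) = 0) →
        ¬∃ w : Fin 2 → Fin 2 → ℝ, LinearIndependent ℝ w ∧ ∀ i a, a + w i ∈ T ↔ a ∈ T := by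
  refine exists_aperiodic_of_tables (l := SideA.tree.mods) (l' := SideB.tree.mods)
    ?_ ?_ ?_ ?_ ?_ (SideA.tree.tableOK SideA.tree_ok) (SideB.tree.tableOK SideB.tree_ok)
    SideA.sizes SideB.sizes (SideA.tree.sizes SideA.tree_ok SideA.tree_sizes)
    (SideB.tree.sizes SideB.tree_ok SideB.tree_sizes) sides_glue
  · show ∀ i, Nat.Prime (![7, 17, 23, 43, 19, 13] i)
    intro i; fin_cases i <;> norm_num
  · show ∀ i, Nat.Prime (![5, 31, 37, 53, 47, 11] i)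
    intro i; fin_cases i <;> norm_num
  · show Function.Injective ![7, 17, 23, 43, 19, 13]
    decide
  · show Function.Injective ![5, 31, 37, 53, 47, 11]
    decide
  · show ∀ i j, ![7, 17, 23, 43, 19, 13] i ≠ ![5, 31, 37, 53, 47, 11] j
    decide

end Vale.Agent.P043.R2
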