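import Vale.Agent.P043.R3.Periodic
import Vale.Agent.P043.R2.Levels

/-!
Helper for P043 R2: the row system of two sides has no solution with a full lattice of periods.
See notes/P043/R2_PROOF_helper4.md, section 2.
-/

namespace Vale.Agent.P043.R2

open Finset

/-- Extreme point induction: if the levels of the positive terms of `∑ M (r - i) = k` differ by a
function injective on `S`, then `M` only takes the values `0` and `k`. -/
lemma zero_or_eq_of_injOn {N k : ℕ} (hN : 0 < N) (hk : 0 < k) {S T : Finset ℤ} (h₁ h₂ : ℤ → ℚ)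
    (hh : Set.InjOn h₁ (S : Set ℤ)) (m : ℤ → ℕ) (K ι : ℤ → ℚ)
    (hsum : ∀ r, ∑ i ∈ S, ∑ j ∈ T, m (r - i - j) = k)
    (hph : ∀ r, ∀ i ∈ S, ∀ j ∈ T, m (r - i - j) ≠ 0 → K (r - i - j) + h₁ i + h₂ j = ι r)
    (hK : Function.Periodic K (N : ℤ)) (v : ℤ) :
    ∑ j ∈ T, m (v - j) = 0 ∨ ∑ j ∈ T, m (v - j) = k := by
  classical
  set M : ℤ → ℕ := fun v => ∑ j ∈ T, m (v - j) with hM
  have ks : ∀ r, ∑ i ∈ S, M (r - i) = k := hsum
  have hne : S.Nonempty := nonempty_of_sum_ne_zero (f := fun i => M (0 - i)) (by rw [ks 0]; omega)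
  obtain ⟨f₀, hf₀, hmax⟩ := exists_max_image S h₁ hne
  set Q : ℤ → ℚ := fun v => ι (v + f₀) - h₁ f₀ with hQ
  have lvl : ∀ r, ∀ i ∈ S, M (r - i) ≠ 0 → ∃ j ∈ T, m (r - i - j) ≠ 0 ∧
      Q (r - i) = K (r - i - j) + h₂ j ∧ Q (r - i) + h₁ i = ι r := by
    intro r i hi hne
    obtain ⟨j, hj, hmj⟩ := exists_ne_zero_of_sum_ne_zero hne
    have h0 := hph (r - i + f₀) f₀ hf₀ j hj
    rw [add_sub_cancel_right] at h0
    have h1 := hph r i hi j hj hmj
    refine ⟨j, hj, hmj, ?_, ?_⟩ <;> simp only [hQ] <;> linarith [h0 hmj]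
  have hle : ∀ v, M v ≤ k := fun v => by
    have := single_le_sum (f := fun i => M (v + f₀ - i)) (fun _ _ => Nat.zero_le _) hf₀
    rwa [ks, add_sub_cancel_right] at this
  suffices big : ∀ v, M v ≠ 0 → k ≤ M v by
    by_cases h : M v = 0
    · exact Or.inl h
    · exact Or.inr (le_antisymm (hle v) (big v h))
  by_contra hcon
  push Not at hcon
  let V : Finset ℚ := ((Ico (0 : ℤ) N) ×ˢ T).image (fun p => K p.1 + h₂ p.2)
  have inV : ∀ v, M v ≠ 0 → Q v ∈ V := by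
    intro v hv
    obtain ⟨j, hj, -, hq, -⟩ := lvl (v + f₀) f₀ hf₀ (by rwa [add_sub_cancel_right])
    rw [add_sub_cancel_right] at hq
    have hN' : (N : ℤ) ≠ 0 := by omega
    refine mem_image.2 ⟨((v - j) % N, j), mem_product.2 ⟨Finset.mem_Ico.2
      ⟨Int.emod_nonneg _ hN', Int.emod_lt_of_pos _ (by omega)⟩, hj⟩, ?_⟩
    rw [hq]
    have := (hK.zsmul ((v - j) / N)) ((v - j) % N)
    rw [smul_eq_mul, Int.emod_add_ediv_mul] at this
    rw [this]
  obtain ⟨v₀, hv₀, hv₀'⟩ := hcon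
  obtain ⟨q, hq, hqmax⟩ := exists_max_image
    (V.filter fun q => ∃ v, M v ≠ 0 ∧ M v < k ∧ Q v = q) id
    ⟨Q v₀, mem_filter.2 ⟨inV v₀ hv₀, v₀, hv₀, hv₀', rfl⟩⟩
  obtain ⟨v, hv, hvk, rfl⟩ := (mem_filter.1 hq).2
  have hv' : M (v + f₀ - f₀) ≠ 0 := by rwa [add_sub_cancel_right]
  have hs := ks (v + f₀)
  rw [← add_sum_erase _ _ hf₀, add_sub_cancel_right] at hs
  have rest : ∀ i ∈ S.erase f₀, M (v + f₀ - i) = 0 := by
    intro i hi
    by_contra hne
    have hle' := single_le_sum (f := fun i => M (v + f₀ - i)) (fun _ _ => Nat.zero_le _) hi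
    by_cases hbig : k ≤ M (v + f₀ - i)
    · have := Nat.pos_of_ne_zero hv
      omega
    · obtain ⟨hi₀, hiS⟩ := mem_erase.1 hi
      obtain ⟨-, -, -, -, e1⟩ := lvl (v + f₀) i hiS hne
      obtain ⟨-, -, -, -, e2⟩ := lvl (v + f₀) f₀ hf₀ hv'
      rw [add_sub_cancel_right] at e2
      have h3 := hqmax (Q (v + f₀ - i)) (mem_filter.2 ⟨inV _ hne, _, hne, by omega, rfl⟩)
      have h4 : h₁ i < h₁ f₀ := lt_of_le_of_ne (hmax i hiS) fun e => hi₀ (hh hiS hf₀ e)
      simp only [id] at h3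
      linarith
  rw [sum_eq_zero rest] at hs
  omega

theorem not_periodic_sys {A B : Fin 2 → Finset ℤ} (v : Fin 2 → ℤ × ℤ → ℤ) (hinj : RowsInj A B)
    (hA : (A 0).Nonempty) (hB : (B 0).Nonempty) {p q : ℕ} (hp : p.Prime) (hq : q.Prime)
    (hgp : LevelGap p A B) (hgq : LevelGap q B A) {T : Set (ℝ × ℤ)} (hT : Sys (spots A B v) T)
    {P : ℝ} (hP : 0 < P) (hPT : ∀ x u, (x + P, u) ∈ T ↔ (x, u) ∈ T)
    {N : ℕ} (hN : 0 < N) (hpN : p ^ 2 ∣ N) (hqN : q ^ 2 ∣ N) (σ : ℝ)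
    (hσ : ∀ x u, (x + σ, u + (N : ℤ)) ∈ T ↔ (x, u) ∈ T) : False := by
  classical
  obtain ⟨I, hI1, hI2⟩ := R3.exists_irr_coord
  have hIz : ∀ z : ℤ, I (z : ℝ) = 0 := fun z => by
    rw [← zsmul_one z, map_zsmul, hI1, smul_zero]
  have hIs : ∀ z : ℤ, I (Real.sqrt 2 * z) = z := fun z => by
    rw [mul_comm, ← zsmul_eq_mul, map_zsmul, hI2, zsmul_one]
  set pos : Fin 2 → ℤ × ℤ → ℝ := fun j f => Real.sqrt 2 * f.1 + (v j f : ℝ) with hpos
  have hIp : ∀ j f, I (pos j f) = (f.1 : ℚ) := fun j f => by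
    simp only [hpos, map_add, hIs, hIz, add_zero]
  have sys : ∀ j r, ∃ ψ : ℝ,
      (∀ f ∈ A j ×ˢ B j, ∀ x, (x, r - (f.1 + f.2)) ∈ T → ∃ z : ℤ, x + pos j f = ψ + z) ∧
      ∀ z : ℤ, ∃! f, f ∈ A j ×ˢ B j ∧ (ψ + z - pos j f, r - (f.1 + f.2)) ∈ T := by
    intro j r
    obtain ⟨ψ, h1, h2⟩ := hT j r
    have mem : ∀ f ∈ A j ×ˢ B j, (pos j f, f.1 + f.2) ∈ spots A B v j :=
      fun f hf => mem_image_of_mem _ hf
    refine ⟨ψ, fun f hf x hx => h1 _ hx _ (mem f hf) (by simp), fun z => ?_⟩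
    obtain ⟨⟨a, b⟩, ⟨ha, hb, hr, hz⟩, hu⟩ := h2 z
    obtain ⟨f, hf, rfl⟩ := mem_image.1 hb
    refine ⟨f, ⟨hf, ?_⟩, fun g hg => ?_⟩
    · have e : (ψ + z - pos j f, r - (f.1 + f.2)) = a := by
        refine Prod.ext ?_ ?_
        · simp only [hpos] at hz ⊢; linarith
        · simp only at hr ⊢; omega
      rwa [e]
    · have := hu ((ψ + z - pos j g, r - (g.1 + g.2)), _) ⟨hg.2, mem g hg.1, by simp, by simp⟩
      exact hinj j hg.1 hf (congrArg (fun q : (ℝ × ℤ) × (ℝ × ℤ) => q.2.2) this)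
  choose ψ hcos huni using sys
  clear_value pos
  obtain ⟨a₀, ha₀⟩ := hA
  obtain ⟨b₀, hb₀⟩ := hB
  have hf₀ : (a₀, b₀) ∈ A 0 ×ˢ B 0 := mem_product.2 ⟨ha₀, hb₀⟩
  -- the period of the rows is a natural number
  obtain ⟨k, hk, rfl⟩ : ∃ k : ℕ, 0 < k ∧ P = (k : ℝ) := by
    obtain ⟨f, ⟨hf, hfT⟩, -⟩ := huni 0 0 0
    obtain ⟨z, hz⟩ := hcos 0 0 f hf _ ((hPT _ _).2 hfT)
    have hPz : P = (z : ℝ) := by push_cast at hz; linarith
    have : 0 < z := by exact_mod_cast hPz ▸ hP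
    exact ⟨z.toNat, by omega, by rw [hPz]; exact_mod_cast (Int.toNat_of_nonneg this.le).symm⟩
  -- the number of points per period in a row
  set cnt : ℝ → ℤ → ℕ :=
    fun θ u => ((Ico (0 : ℤ) k).filter fun z : ℤ => (θ + (z : ℝ), u) ∈ T).card with hcnt
  set θ : ℤ → ℝ := fun u => ψ 0 (u + (a₀ + b₀)) - pos 0 (a₀, b₀) with hθ
  have hX : ∀ u x, (x, u) ∈ T → ∃ z : ℤ, x = θ u + z := fun u x hx => by
    obtain ⟨z, hz⟩ := hcos 0 (u + (a₀ + b₀)) _ hf₀ x (by rwa [add_sub_cancel_right])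
    exact ⟨z, by simp only [hθ]; linarith⟩
  have cnt_eq : ∀ (u : ℤ) (φ : ℝ),
      (∀ x, (x, u) ∈ T → ∃ z : ℤ, x = φ + z) → cnt φ u = cnt (θ u) u := by
    intro u φ hφ
    by_cases he : ∃ x, (x, u) ∈ T
    · obtain ⟨x, hx⟩ := he
      obtain ⟨z, hz⟩ := hX u x hx
      obtain ⟨z', hz'⟩ := hφ x hx
      have per : Function.Periodic (fun z : ℤ => (θ u + z, u) ∈ T) (k : ℤ) := fun y => by
        simp only [Int.cast_add, Int.cast_natCast, ← add_assoc, hPT]
      have := R3.card_filter_shift hk _ per (z - z')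
      simp only [hcnt]
      rw [← this]
      congr 2
      funext y
      congr 2
      push_cast
      linarith
    · push Not at he
      simp [hcnt, he]
  set m : ℤ → ℕ := fun u => cnt (θ u) u with hm
  have hmI : ∀ u, m u ≠ 0 → ∃ x, (x, u) ∈ T ∧ I x = I (θ u) := fun u hu => by
    obtain ⟨z, hz⟩ := card_ne_zero.1 hu
    exact ⟨_, (mem_filter.1 hz).2, by rw [map_add, hIz, add_zero]⟩
  have row : ∀ j r, ∑ f ∈ A j ×ˢ B j, m (r - (f.1 + f.2)) = k := by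
    intro j r
    have : ∀ f ∈ A j ×ˢ B j, m (r - (f.1 + f.2)) = cnt (ψ j r - pos j f) (r - (f.1 + f.2)) :=
      fun f hf => by
        refine (cnt_eq _ _ fun x hx => ?_).symm
        obtain ⟨z, hz⟩ := hcos j r f hf x hx
        exact ⟨z, by linarith⟩
    rw [sum_congr rfl this]
    simp only [hcnt, card_filter]
    rw [sum_comm]
    refine (sum_eq_card_nsmul (b := 1) fun z _ => ?_).trans (by simp)
    obtain ⟨f, ⟨hf, hfT⟩, hu⟩ := huni j r z
    rw [sum_eq_single_of_mem f hf fun g hg hne => if_neg fun hgT => hne (hu g ⟨hg, ?_⟩),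
      if_pos ?_]
    · rwa [sub_add_eq_add_sub] at *
    · rwa [sub_add_eq_add_sub] at hgT
  have phase : ∀ j r, ∀ f ∈ A j ×ˢ B j, m (r - (f.1 + f.2)) ≠ 0 →
      I (θ (r - (f.1 + f.2))) + (f.1 : ℚ) = I (ψ j r) := by
    intro j r f hf hne
    obtain ⟨x, hx, hIx⟩ := hmI _ hne
    obtain ⟨z, hz⟩ := hcos j r f hf x hx
    have := congrArg I hz
    rw [map_add, map_add, hIz, hIp, hIx, add_zero] at this
    exact this
  -- the vertical period
  have hm' : Function.Periodic m (N : ℤ) := fun u => by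
    simp only [hm]
    rw [← cnt_eq u (θ (u + N) - σ) fun x hx => ?_]
    · simp only [hcnt]
      congr 1
      refine filter_congr fun z _ => ?_
      rw [← hσ (θ (u + N) - σ + z)]
      ring_nf
    · obtain ⟨z, hz⟩ := hX (u + N) (x + σ) ((hσ x _).2 hx)
      exact ⟨z, by linarith⟩
  have hJ : ∀ u, m u ≠ 0 → I (θ (u + N)) = I (θ u) + I σ := fun u hu => by
    obtain ⟨x, hx, hIx⟩ := hmI u hu
    obtain ⟨z, hz⟩ := hX (u + N) (x + σ) ((hσ x _).2 hx)
    have := congrArg I hz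
    rw [map_add, map_add, hIz, hIx, add_zero] at this
    exact this.symm
  set l : ℚ := I σ / N with hl
  set K : ℤ → ℚ := fun u => if m u = 0 then 0 else I (θ u) - l * u with hK
  have hN' : (N : ℚ) ≠ 0 := by exact_mod_cast hN.ne'
  have hK' : Function.Periodic K (N : ℤ) := fun u => by
    simp only [hK, hm' u]
    split_ifs with h
    · rfl
    · rw [hJ u h]; simp [hl]; field_simp; ring
  have hph : ∀ j r, ∀ i ∈ A j, ∀ b ∈ B j, m (r - i - b) ≠ 0 →
      K (r - i - b) + (1 - l) * i + -l * b = I (ψ j r) - l * r := by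
    intro j r i hi b hb hne
    have h1 := phase j r (i, b) (mem_product.2 ⟨hi, hb⟩)
    simp only [← sub_sub] at h1
    have h2 := h1 hne
    simp only [hK, if_neg hne]
    push_cast
    linarith
  have row' : ∀ j r, ∑ i ∈ A j, ∑ b ∈ B j, m (r - i - b) = k := fun j r => by
    rw [← row j r, sum_product]
    simp only [← sub_sub]
  by_cases h : l = 1
  · -- exchange the sides
    have row'' : ∀ j r, ∑ b ∈ B j, ∑ i ∈ A j, m (r - b - i) = k := fun j r => by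
      rw [sum_comm]
      simp only [sub_right_comm r _ _]
      exact row' j r
    refine no_factor hq hN hk hqN hm' hgq row'' fun u =>
      zero_or_eq_of_injOn hN hk (fun b => -(b : ℚ)) (fun _ => 0)
        (fun x _ y _ e => by simpa using e) m K (fun r => I (ψ 1 r) - l * r) (row'' 1) ?_ hK' u
    intro r b hb i hi hne
    rw [sub_right_comm] at hne ⊢
    have := hph 1 r i hi b hb hne
    rw [h] at this ⊢
    linarith
  · refine no_factor hp hN hk hpN hm' hgp row' fun u =>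
      zero_or_eq_of_injOn hN hk (fun i => (1 - l) * i) (fun b => -l * b)
        (fun x _ y _ e => ?_) m K (fun r => I (ψ 1 r) - l * r) (row' 1) (hph 1) hK' u
    exact_mod_cast mul_left_cancel₀ (sub_ne_zero.2 (Ne.symm h)) e

end Vale.Agent.P043.R2
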