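import Vale.Agent.P043.R2.Rigid
import Vale.Agent.P043.R2.Periodic

/-!
Helper for P043 R2: from two sides with a level gap and one solution of the row system to a
bounded measurable tile of the plane none of whose tilings is periodic.
-/

namespace Vale.Agent.P043.R2

open MeasureTheory

theorem spots_injOn {A B : Fin 2 → Finset ℤ} (v : Fin 2 → ℤ × ℤ → ℤ) (hinj : RowsInj A B)
    (m : Fin 2) : Set.InjOn Prod.snd (spots A B v m : Set (ℝ × ℤ)) := by
  intro p hp q hq h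
  rw [Finset.mem_coe] at hp hq
  obtain ⟨f, hf, rfl⟩ := Finset.mem_image.1 hp
  obtain ⟨g, hg, rfl⟩ := Finset.mem_image.1 hq
  rw [hinj m hf hg h]

theorem pt_add (p q : ℝ × ℤ) : pt (p + q) = pt p + pt q := by
  simp [pt]

theorem pt_injective : Function.Injective pt := by
  intro p q h
  simp only [pt, Prod.mk.injEq, Int.cast_inj] at h
  exact Prod.ext h.1 h.2

/-- The vectors whose translation preserves `T`. -/
def perGroup (T : Set (ℝ × ℤ)) : AddSubgroup (ℝ × ℤ) where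
  carrier := {w | ∀ a, a + w ∈ T ↔ a ∈ T}
  zero_mem' := fun a => by rw [add_zero]
  add_mem' := fun {w w'} hw hw' a => by rw [← add_assoc, hw', hw]
  neg_mem' := fun {w} hw a => by rw [← hw (a + -w), add_assoc, neg_add_cancel, add_zero]

/-- Two independent periods with integral rows give a horizontal period and a period whose row is
a positive multiple of any given number. -/
theorem exists_periods {T : Set (ℝ × ℤ)} {m : Fin 2 → ℝ × ℤ} (hm : ∀ i, m i ∈ perGroup T)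
    (hd : (m 0).1 * (m 1).2 - (m 1).1 * (m 0).2 ≠ 0) {M : ℕ} (hM : 0 < M) :
    (∃ P : ℝ, 0 < P ∧ ∀ x u, (x + P, u) ∈ T ↔ (x, u) ∈ T) ∧
      ∃ N : ℕ, 0 < N ∧ M ∣ N ∧ ∃ σ : ℝ, ∀ x u, (x + σ, u + (N : ℤ)) ∈ T ↔ (x, u) ∈ T := by
  have hw := (perGroup T).sub_mem ((perGroup T).zsmul_mem (hm 0) (m 1).2)
    ((perGroup T).zsmul_mem (hm 1) (m 0).2)
  have e : (m 1).2 • m 0 - (m 0).2 • m 1 =
      ((m 0).1 * (m 1).2 - (m 1).1 * (m 0).2, (0 : ℤ)) := by
    refine Prod.ext ?_ ?_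
    · simp; ring
    · simp; ring
  rw [e] at hw
  refine ⟨?_, ?_⟩
  · rcases lt_or_gt_of_ne hd with h | h
    · refine ⟨-((m 0).1 * (m 1).2 - (m 1).1 * (m 0).2), by linarith, fun x u => ?_⟩
      simpa using (perGroup T).neg_mem hw (x, u)
    · refine ⟨_, h, fun x u => ?_⟩
      simpa using hw (x, u)
  · obtain ⟨w, hw', hpos⟩ : ∃ w ∈ perGroup T, 0 < w.2 := by
      obtain ⟨i, hi⟩ : ∃ i, (m i).2 ≠ 0 := by
        by_contra hc
        push Not at hc
        simp [hc] at hd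
      rcases lt_or_gt_of_ne hi with h | h
      · exact ⟨-m i, (perGroup T).neg_mem (hm i), by simp; omega⟩
      · exact ⟨m i, hm i, h⟩
    refine ⟨M * w.2.toNat, Nat.mul_pos hM (by omega), dvd_mul_right _ _, (M : ℝ) * w.1,
      fun x u => ?_⟩
    have := (perGroup T).nsmul_mem hw' M (x, u)
    have e : ((x, u) : ℝ × ℤ) + M • w = (x + (M : ℝ) * w.1, u + ((M * w.2.toNat : ℕ) : ℤ)) := by
      refine Prod.ext ?_ ?_
      · simp
      · simp [Int.toNat_of_nonneg hpos.le]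
    rwa [e] at this

theorem exists_aperiodic_of (A B : Fin 2 → Finset ℤ) (v : Fin 2 → ℤ × ℤ → ℤ) (hinj : RowsInj A B)
    (hA : (A 0).Nonempty) (hB : (B 0).Nonempty) {p q : ℕ} (hp : p.Prime) (hq : q.Prime)
    (hgp : LevelGap p A B) (hgq : LevelGap q B A) (hex : ∃ T, Sys (spots A B v) T) :
    ∃ Ω : Set (Fin 2 → ℝ), MeasurableSet Ω ∧ Bornology.IsBounded Ω ∧ 0 < volume Ω ∧
      (∃ T : Set (Fin 2 → ℝ), (∀ᵐ x, ∃ a ∈ T, x - a ∈ Ω) ∧
        ∀ a ∈ T, ∀ b ∈ T, a ≠ b → volume ({x | x - a ∈ Ω} ∩ {x | x - b ∈ Ω}) = 0) ∧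
      ∀ T : Set (Fin 2 → ℝ),
        ((∀ᵐ x, ∃ a ∈ T, x - a ∈ Ω) ∧
          ∀ a ∈ T, ∀ b ∈ T, a ≠ b → volume ({x | x - a ∈ Ω} ∩ {x | x - b ∈ Ω}) = 0) →
        ¬∃ w : Fin 2 → Fin 2 → ℝ, LinearIndependent ℝ w ∧ ∀ i a, a + w i ∈ T ↔ a ∈ T := by
  set L : (Fin 2 → ℝ) ≃ₗ[ℝ] ℝ × ℝ := LinearEquiv.finTwoArrow ℝ ℝ with hLdef
  have hL : MeasurePreserving L volume volume := by
    have h := volume_preserving_finTwoArrow ℝ
    exact h
  have hLe : MeasurableEmbedding L := L.toContinuousLinearEquiv.toHomeomorph.measurableEmbedding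
  have hvol : ∀ S, volume (L ⁻¹' S) = volume S := fun S => hL.measure_preimage_emb hLe S
  have hF : (spots A B v 0).Nonempty := (hA.product hB).image _
  obtain ⟨hm, hb, hpos⟩ := body_facts hF
  have hinj' := spots_injOn v hinj
  set Ω := body (spots A B v) with hΩ
  -- tilings on the two sides correspond
  have hiff : ∀ T : Set (Fin 2 → ℝ),
      ((∀ᵐ x, ∃ a ∈ T, x - a ∈ L ⁻¹' Ω) ∧ ∀ a ∈ T, ∀ b ∈ T, a ≠ b →
        volume ({x | x - a ∈ L ⁻¹' Ω} ∩ {x | x - b ∈ L ⁻¹' Ω}) = 0) ↔ Tiling Ω (L '' T) := by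
    intro T
    have e : ∀ a, {x | x - a ∈ L ⁻¹' Ω} = L ⁻¹' {z | z - L a ∈ Ω} := fun a => by
      ext x; simp [map_sub]
    unfold Tiling
    refine and_congr ?_ ?_
    · rw [ae_iff, ae_iff, ← hvol {z | ¬∃ a ∈ L '' T, z - a ∈ Ω}]
      refine Iff.of_eq ?_
      congr 2
      ext x
      simp [map_sub]
    · simp only [e, ← Set.preimage_inter, hvol, Set.forall_mem_image, ne_eq, L.injective.eq_iff]
  refine ⟨L ⁻¹' Ω, hLe.measurable hm, ?_, (hvol _).symm ▸ hpos, ?_, ?_⟩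
  · have := (L.toContinuousLinearEquiv.symm : (ℝ × ℝ) →L[ℝ] (Fin 2 → ℝ)).lipschitz.isBounded_image hb
    refine this.subset fun x hx => ⟨L x, hx, ?_⟩
    simp
  · obtain ⟨T, hT⟩ := hex
    refine ⟨L ⁻¹' (pt '' T), (hiff _).2 ?_⟩
    rw [Set.image_preimage_eq _ L.surjective]
    exact tiling_of_sys hT
  · rintro T hT ⟨w, hw, hper⟩
    obtain ⟨o, S, hS, hTS⟩ := sys_of_tiling hinj' hF ((hiff T).1 hT)
    obtain ⟨ψ, -, hz⟩ := hS 0 0
    obtain ⟨⟨b₀, p₀⟩, ⟨hb₀, -⟩, -⟩ := hz 0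
    have hL' : ∀ i a, a + L (w i) ∈ L '' T ↔ a ∈ L '' T := by
      intro i a
      obtain ⟨x, rfl⟩ := L.surjective a
      rw [← map_add, L.injective.mem_set_image, L.injective.mem_set_image, hper]
    have key : ∀ i, ∃ m : ℝ × ℤ, m ∈ perGroup S ∧ pt m = L (w i) := by
      intro i
      have hmem : ∀ b, o + pt b ∈ L '' T ↔ b ∈ S := fun b => by
        rw [hTS]
        exact ((add_right_injective o).comp pt_injective).mem_set_image
      have h0 : o + pt b₀ + L (w i) ∈ L '' T := (hL' i _).2 ((hmem _).2 hb₀)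
      rw [hTS] at h0
      obtain ⟨b, -, hb⟩ := h0
      have hm : pt (b - b₀) = L (w i) := by
        have e := pt_add (b - b₀) b₀
        rw [sub_add_cancel] at e
        simp only at hb
        rw [add_assoc, e, add_comm (pt (b - b₀))] at hb
        exact add_left_cancel (add_left_cancel hb)
      refine ⟨b - b₀, fun c => ?_, hm⟩
      rw [← hmem, ← hmem c, pt_add, hm, ← add_assoc]
      exact hL' i _
    choose m hm hmv using key
    have hd : (m 0).1 * (m 1).2 - (m 1).1 * (m 0).2 ≠ 0 := by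
      intro h0
      have hli : LinearIndependent ℝ fun i => L (w i) := hw.map' L.toLinearMap L.ker
      rw [Fintype.linearIndependent_iff] at hli
      have e0 := hmv 0
      have e1 := hmv 1
      by_cases hz : (m 1).2 = 0 ∧ (m 0).2 = 0
      · have h1 := hli ![(m 1).1, -(m 0).1] (by
          simp [Fin.sum_univ_two, ← e0, ← e1, pt, hz.1, hz.2]; ring)
        have a1 : (m 1).1 = 0 := by simpa using h1 0
        have := hli ![0, 1] (by simp [Fin.sum_univ_two, ← e1, pt, hz.1, a1]) 1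
        simp at this
      · have h1 := hli ![((m 1).2 : ℝ), -((m 0).2 : ℝ)] (by
          simp [Fin.sum_univ_two, ← e0, ← e1, pt]
          refine ⟨by linear_combination h0, by ring⟩)
        exact hz ⟨by simpa using h1 0, by simpa using h1 1⟩
    obtain ⟨⟨P, hP, hPS⟩, N, hN, hdvd, σ, hσ⟩ :=
      exists_periods hm hd (M := p ^ 2 * q ^ 2) (Nat.mul_pos (pow_pos hp.pos _) (pow_pos hq.pos _))
    exact not_periodic_sys v hinj hA hB hp hq hgp hgq hS hP hPS hN
      ((dvd_mul_right _ _).trans hdvd) ((dvd_mul_left _ _).trans hdvd) σ hσ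

end Vale.Agent.P043.R2
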