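import Vale.Agent.P043.R2.Table

/-!
Helper for P043 R2: the two sides in standard form on twelve primes, their disjointness and the
level gaps.
-/

namespace Vale.Agent.P043.R2

open Finset

/-- A side in standard form on six distinct primes, divisible by a given number prime to them. -/
theorem exists_side {l : Fin 6 → ℕ} [∀ i, NeZero (l i)] (hl : ∀ i, (l i).Prime)
    (hinj : Function.Injective l) {M : ℕ} (hM : ∀ i, Nat.Coprime (l i) M) :
    ∃ S : Side (Grp l), Standard l S ∧ (∀ z i, S.φ z i = (z : ZMod (l i ^ 2))) ∧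
      (∀ m, ∀ a ∈ S.A m, (M : ℤ) ∣ a) ∧ (∀ m, (S.A m).Nonempty) ∧
      ∀ ζ : ℂ, IsPrimitiveRoot ζ (l 0 ^ 2) →
        ∑ a ∈ S.A 1, ζ ^ a = 0 ∧ ∑ a ∈ S.A 0, ζ ^ a ≠ 0 := by
  classical
  have hidem : ∀ i, ∃ e : ℤ, ((e : ℤ) : ZMod (l i ^ 2)) = 1 ∧
      (∀ j, j ≠ i → ((e : ℤ) : ZMod (l j ^ 2)) = 0) ∧ (M : ℤ) ∣ e := by
    intro i
    have hc : Nat.Coprime (l i ^ 2) (M * ∏ j ∈ univ.erase i, l j ^ 2) := by
      refine Nat.Coprime.mul_right ((hM i).pow_left _) (Nat.Coprime.prod_right fun j hj => ?_)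
      exact ((Nat.coprime_primes (hl i) (hl j)).2
        fun e => (mem_erase.1 hj).1 (hinj e).symm).pow _ _
    obtain ⟨u, w, huw⟩ := Int.isCoprime_iff_nat_coprime.2
      (show Nat.Coprime (Int.natAbs ((l i ^ 2 : ℕ) : ℤ))
        (Int.natAbs ((M * ∏ j ∈ univ.erase i, l j ^ 2 : ℕ) : ℤ)) from hc)
    refine ⟨w * ((M * ∏ j ∈ univ.erase i, l j ^ 2 : ℕ) : ℤ), ?_, fun j hj => ?_, ?_⟩
    · have := congrArg (fun z : ℤ => (z : ZMod (l i ^ 2))) huw
      simp only [Int.cast_add, Int.cast_mul, Int.cast_natCast, Int.cast_one, ZMod.natCast_self,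
        mul_zero, zero_add] at this
      simpa using this
    · rw [ZMod.intCast_zmod_eq_zero_iff_dvd]
      exact (Int.natCast_dvd_natCast.2 (dvd_mul_of_dvd_right
        (dvd_prod_of_mem (fun j => l j ^ 2) (mem_erase.2 ⟨hj, mem_univ j⟩)) M)).mul_left w
    · exact (Int.natCast_dvd_natCast.2 (Nat.dvd_mul_right _ _)).mul_left w
  choose e he1 he0 heM using hidem
  set dig : Fin 2 → (i : Fin 6) → ℕ → ℕ := fun m i x => if side i = m then x else l i * x with hdig
  set rep : Fin 2 → Low l → ℤ := fun m t => ∑ i, (dig m i (t i).val : ℤ) * e i with hrep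
  have hcast : ∀ m t i, ((rep m t : ℤ) : ZMod (l i ^ 2)) = (dig m i (t i).val : ℕ) := fun m t i => by
    simp only [hrep, Int.cast_sum, Int.cast_mul, Int.cast_natCast]
    rw [Fintype.sum_eq_single i fun j hj => by rw [he0 j i hj.symm, mul_zero], he1 i, mul_one]
  have hlt : ∀ m i (x : Fin (l i)), dig m i x.val < l i ^ 2 := fun m i x => by
    simp only [hdig, sq]
    split_ifs
    · exact lt_of_lt_of_le x.isLt (Nat.le_mul_of_pos_left _ (hl i).pos)
    · exact Nat.mul_lt_mul_of_pos_left x.isLt (hl i).pos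
  let φ : ℤ →+ Grp l :=
    { toFun := fun z i => (z : ZMod (l i ^ 2))
      map_zero' := funext fun i => Int.cast_zero
      map_add' := fun a b => funext fun i => Int.cast_add a b }
  -- the digit of a member, read off from its residue
  set d : Fin 2 → ℤ → Fin 6 → ℕ := fun m a i => if side i = m then ((a : ZMod (l i ^ 2))).val
    else ((a : ZMod (l i ^ 2))).val / l i with hd
  set v : Fin 2 → ℤ → ℤ := fun m a => ∑ i, (d m a i : ℤ) * e i with hv
  have hiff : ∀ m a (t : Low l), HasDigits φ m a t ↔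
      ∀ i, (a : ZMod (l i ^ 2)) = (dig m i (t i).val : ℕ) := fun m a t => by
    unfold HasDigits
    refine forall_congr' fun i => ?_
    simp only [hdig]
    split_ifs <;> exact Iff.rfl
  have hdigval : ∀ m a (t : Low l), HasDigits φ m a t → ∀ i, d m a i = (t i).val := by
    intro m a t h i
    have := congrArg ZMod.val ((hiff m a t).1 h i)
    rw [ZMod.val_cast_of_lt (hlt m i (t i))] at this
    simp only [hd, this, hdig]
    split_ifs
    · rfl
    · exact Nat.mul_div_cancel_left _ (hl i).pos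
  have hrepinj : ∀ m t t', (∀ i, ((rep m t : ℤ) : ZMod (l i ^ 2)) = ((rep m t' : ℤ) : ZMod _)) →
      t = t' := by
    intro m t t' h
    funext i
    have := h i
    rw [hcast, hcast] at this
    have := congrArg ZMod.val this
    rw [ZMod.val_cast_of_lt (hlt m i (t i)), ZMod.val_cast_of_lt (hlt m i (t' i))] at this
    simp only [hdig] at this
    split_ifs at this
    · exact Fin.ext this
    · exact Fin.ext (Nat.eq_of_mul_eq_mul_left (hl i).pos this)
  refine ⟨⟨φ, fun m => (univ : Finset (Low l)).image (rep m), v⟩,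
    ⟨fun m a ha => ?_, fun m t => ?_, fun m => ?_, fun m a _ t ht i => ?_⟩, fun z i => rfl,
    fun m a ha => ?_, fun m => ?_, fun ζ hζ => ?_⟩
  · obtain ⟨t, -, rfl⟩ := mem_image.1 ha
    exact ⟨t, (hiff m _ t).2 (hcast m t)⟩
  · exact ⟨rep m t, mem_image_of_mem _ (mem_univ t), (hiff m _ t).2 (hcast m t)⟩
  · intro a ha b hb hab
    simp only [coe_image, coe_univ, Set.image_univ, Set.mem_range] at ha hb
    obtain ⟨t, rfl⟩ := ha
    obtain ⟨t', rfl⟩ := hb
    rw [hrepinj m t t' fun i => congrFun hab i]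
  · have h0 : ∀ j, j ≠ i → ((e j : ℤ) : ZMod (l i)) = 0 := fun j hj => by
      have := he0 j i hj.symm
      rw [ZMod.intCast_zmod_eq_zero_iff_dvd] at this ⊢
      exact (Int.natCast_dvd_natCast.2 (dvd_pow_self _ two_ne_zero)).trans this
    have h1 : ((e i : ℤ) : ZMod (l i)) = 1 := by
      have := congrArg (ZMod.castHom (dvd_pow_self (l i) two_ne_zero) (ZMod (l i))) (he1 i)
      simpa using this
    simp only [hv, Int.cast_sum, Int.cast_mul, Int.cast_natCast]
    rw [Fintype.sum_eq_single i fun j hj => by rw [h0 j hj, mul_zero], h1, mul_one,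
      hdigval m a t ht i]
  · obtain ⟨t, -, rfl⟩ := mem_image.1 ha
    exact dvd_sum fun i _ => (heM i).mul_left _
  · exact ⟨rep m fun i => ⟨0, (hl i).pos⟩, mem_image_of_mem _ (mem_univ _)⟩
  · have hp := hl 0
    have hmask : ∀ m, ∑ a ∈ univ.image (rep m), ζ ^ a =
        (Fintype.card ((j : {j : Fin 6 // j ≠ 0}) → Fin (l j)) : ℂ) *
          ∑ x ∈ range (l 0), ζ ^ dig m 0 x := by
      intro m
      rw [sum_image fun t _ t' _ h => hrepinj m t t' fun i => by rw [h],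
        Finset.sum_range fun x => ζ ^ dig m 0 x, Finset.mul_sum,
        ← (Equiv.piSplitAt 0 fun i => Fin (l i)).symm.sum_comp, Fintype.sum_prod_type]
      refine Fintype.sum_congr _ _ fun x => ?_
      rw [sum_congr rfl fun r _ => ?_, sum_const, card_univ, nsmul_eq_mul]
      have := hcast m ((Equiv.piSplitAt 0 fun i => Fin (l i)).symm (x, r)) 0
      rw [← Int.cast_natCast, ZMod.intCast_eq_intCast_iff_dvd_sub] at this
      obtain ⟨j, hj⟩ := this
      have e0 : ((Equiv.piSplitAt 0 fun i => Fin (l i)).symm (x, r)) 0 = x := by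
        simp [Equiv.piSplitAt]
      rw [e0] at hj
      rw [show rep m ((Equiv.piSplitAt 0 fun i => Fin (l i)).symm (x, r)) =
        (dig m 0 x : ℤ) + ((l 0 ^ 2 : ℕ) : ℤ) * (-j) by rw [mul_neg, ← hj]; ring,
        zpow_add₀ (hζ.ne_zero (pow_ne_zero _ hp.ne_zero)), zpow_mul, zpow_natCast, zpow_natCast,
        hζ.pow_eq_one, one_zpow, mul_one]
    have hcard : (Fintype.card ((j : {j : Fin 6 // j ≠ 0}) → Fin (l j)) : ℂ) ≠ 0 := by
      rw [Nat.cast_ne_zero]
      have : Nonempty ((j : {j : Fin 6 // j ≠ 0}) → Fin (l j)) :=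
        ⟨fun j => ⟨0, (hl j).pos⟩⟩
      exact Fintype.card_ne_zero
    have hroot : IsPrimitiveRoot (ζ ^ l 0) (l 0) := hζ.pow (pow_pos hp.pos 2) (sq _)
    show ∑ a ∈ univ.image (rep 1), ζ ^ a = 0 ∧ ∑ a ∈ univ.image (rep 0), ζ ^ a ≠ 0
    refine ⟨?_, ?_⟩
    · rw [hmask, sum_congr rfl fun x _ => show ζ ^ dig 1 0 x = (ζ ^ l 0) ^ x by
        simp [hdig, side, pow_mul], hroot.geom_sum_eq_zero hp.one_lt, mul_zero]
    · rw [hmask, sum_congr rfl fun x _ => show ζ ^ dig 0 0 x = ζ ^ x by simp [hdig, side]]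
      refine mul_ne_zero hcard fun h => hroot.ne_one hp.one_lt ?_
      have := geom_sum_mul ζ (l 0)
      rw [h, zero_mul] at this
      exact (sub_eq_zero.1 this.symm)

/-- Two standard sides on twelve distinct primes. -/
theorem exists_sides {l l' : Fin 6 → ℕ} [∀ i, NeZero (l i)] [∀ i, NeZero (l' i)]
    (hl : ∀ i, (l i).Prime) (hl' : ∀ i, (l' i).Prime) (hinj : Function.Injective l)
    (hinj' : Function.Injective l') (hne : ∀ i j, l i ≠ l' j) :
    ∃ (S : Side (Grp l)) (T : Side (Grp l')), Standard l S ∧ Standard l' T ∧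
      (∀ m, ∀ b ∈ T.A m, S.φ b = 0) ∧ (∀ m, ∀ a ∈ S.A m, T.φ a = 0) ∧
      RowsInj S.A T.A ∧ (S.A 0).Nonempty ∧ (T.A 0).Nonempty ∧
      LevelGap (l 0) S.A T.A ∧ LevelGap (l' 0) T.A S.A := by
  obtain ⟨S, hS, hφ, hdS, hnS, hmS⟩ := exists_side hl hinj (M := ∏ j, l' j ^ 2) fun i =>
    Nat.Coprime.prod_right fun j _ => ((Nat.coprime_primes (hl i) (hl' j)).2 (hne i j)).pow_right 2
  obtain ⟨T, hT, hψ, hdT, hnT, hmT⟩ := exists_side hl' hinj' (M := ∏ j, l j ^ 2) fun i =>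
    Nat.Coprime.prod_right fun j _ =>
      ((Nat.coprime_primes (hl' i) (hl j)).2 (hne j i).symm).pow_right 2
  have dT : ∀ m, ∀ b ∈ T.A m, ∀ i, ((l i ^ 2 : ℕ) : ℤ) ∣ b := fun m b hb i =>
    (Int.natCast_dvd_natCast.2 (dvd_prod_of_mem (fun j => l j ^ 2) (mem_univ i))).trans (hdT m b hb)
  have dS : ∀ m, ∀ a ∈ S.A m, ∀ i, ((l' i ^ 2 : ℕ) : ℤ) ∣ a := fun m a ha i =>
    (Int.natCast_dvd_natCast.2 (dvd_prod_of_mem (fun j => l' j ^ 2) (mem_univ i))).trans
      (hdS m a ha)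
  have zT : ∀ m, ∀ b ∈ T.A m, S.φ b = 0 := fun m b hb => funext fun i => by
    rw [hφ]; exact (ZMod.intCast_zmod_eq_zero_iff_dvd _ _).2 (dT m b hb i)
  have zS : ∀ m, ∀ a ∈ S.A m, T.φ a = 0 := fun m a ha => funext fun i => by
    rw [hψ]; exact (ZMod.intCast_zmod_eq_zero_iff_dvd _ _).2 (dS m a ha i)
  have mult : ∀ (p : ℕ) (B : Finset ℤ), B.Nonempty → (∀ b ∈ B, (p : ℤ) ∣ b) → ∀ ζ : ℂ,
      IsPrimitiveRoot ζ p → ∑ b ∈ B, ζ ^ b ≠ 0 := by
    intro p B hB hd ζ hζ
    rw [sum_congr rfl fun b hb => (hζ.zpow_eq_one_iff_dvd b).2 (hd b hb), sum_const,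
      nsmul_eq_mul, mul_one, Nat.cast_ne_zero]
    exact hB.card_pos.ne'
  refine ⟨S, T, hS, hT, zT, zS, fun m f hf g hg e => ?_, hnS 0, hnT 0,
    fun ζ hζ => ⟨(hmS ζ hζ).1, (hmS ζ hζ).2, fun m =>
      mult _ _ (hnT m) (fun b hb => dT m b hb 0) ζ hζ⟩,
    fun ζ hζ => ⟨(hmT ζ hζ).1, (hmT ζ hζ).2, fun m =>
      mult _ _ (hnS m) (fun a ha => dS m a ha 0) ζ hζ⟩⟩
  simp only [coe_product, Set.mem_prod, mem_coe] at hf hg
  simp only at e
  have h1 := congrArg S.φ e
  simp only [map_add, zT m _ hf.2, zT m _ hg.2, add_zero] at h1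
  have h2 := hS.unique_rep m hf.1 hg.1 h1
  exact Prod.ext h2 (by omega)

end Vale.Agent.P043.R2
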