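import Vale.Agent.P043.R2.NoPeriod
import Vale.Agent.P043.R2.Std
import Vale.Agent.P043.R2.Glue
import Vale.Agent.P043.R2.Cells

/-!
Helper for P043 (aperiodic tile of the plane): tables with glueable pools give an aperiodic tile.
-/

namespace Vale.Agent.P043.R2

open MeasureTheory

theorem exists_aperiodic_of_tables {l l' : Fin 6 → ℕ} [∀ i, NeZero (l i)] [∀ i, NeZero (l' i)]
    (hl : ∀ i, (l i).Prime) (hl' : ∀ i, (l' i).Prime) (hinj : Function.Injective l)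
    (hinj' : Function.Injective l') (hne : ∀ i j, l i ≠ l' j)
    {tab : Fin 2 → Low l → Torus} {tab' : Fin 2 → Low l' → Torus} (ht : TableOK l tab)
    (ht' : TableOK l' tab') (PK PK' : List (ℕ × ℕ))
    (hP : ∀ m c, cls m c = c → ∀ q ∈ (tab m c).pools, (l (tab m c).axis, q.1) ∈ PK)
    (hP' : ∀ m c, cls m c = c → ∀ q ∈ (tab' m c).pools, (l' (tab' m c).axis, q.1) ∈ PK')
    (hG : ∀ p ∈ PK, ∀ q ∈ PK', Glues p.1 p.2 q.1 q.2) :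
    ∃ Ω : Set (Fin 2 → ℝ), MeasurableSet Ω ∧ Bornology.IsBounded Ω ∧ 0 < volume Ω ∧
      (∃ T : Set (Fin 2 → ℝ), (∀ᵐ x, ∃ a ∈ T, x - a ∈ Ω) ∧
        ∀ a ∈ T, ∀ b ∈ T, a ≠ b → volume ({x | x - a ∈ Ω} ∩ {x | x - b ∈ Ω}) = 0) ∧
      ∀ T : Set (Fin 2 → ℝ),
        ((∀ᵐ x, ∃ a ∈ T, x - a ∈ Ω) ∧
          ∀ a ∈ T, ∀ b ∈ T, a ≠ b → volume ({x | x - a ∈ Ω} ∩ {x | x - b ∈ Ω}) = 0) →
        ¬∃ w : Fin 2 → Fin 2 → ℝ, LinearIndependent ℝ w ∧ ∀ i a, a + w i ∈ T ↔ a ∈ T := by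
  obtain ⟨S, T, hS, hT, hST, hTS, hrow, hA, hB, hg, hg'⟩ := exists_sides hl hl' hinj hinj' hne
  exact exists_aperiodic_of S.A T.A (fun m f => S.v m f.1 + T.v m f.2) hrow hA hB (hl 0) (hl' 0)
    hg hg' (systemStep_of glueStep cellsStep l l' S T tab tab' PK PK' hl hl' hS hT ht ht' hP hP'
      hST hTS hG)

end Vale.Agent.P043.R2
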