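import Vale.Agent.P043.R3.Rigid.Line
import Vale.Agent.P043.R2.Rigid.Cells

/-!
Helper for P043 R2: every tiling of the plane by the body comes from a solution of the row system.
-/

namespace Vale.Agent.P043.R2

open MeasureTheory Set Polynomial

lemma exists_of_ae {α : Type*} [MeasurableSpace α] {μ : Measure α} {P : α → Prop} {T : Set α}
    (h : ∀ᵐ y ∂μ, P y) (hT : 0 < μ T) : ∃ y ∈ T, P y := by
  by_contra hc
  push Not at hc
  exact hT.ne' (measure_mono_null (fun y hy => hc y hy) (ae_iff.1 h))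

/-- A quadratic that is not constant takes a given value only on a null set. -/
lemma volume_quadratic {a b c : ℝ} (h : a ≠ 0 ∨ b ≠ 0) :
    volume {y : ℝ | a * y ^ 2 + b * y + c = 0} = 0 := by
  set P : ℝ[X] := C a * X ^ 2 + C b * X + C c with hP
  have hne : P ≠ 0 := by
    intro e
    rcases h with h | h
    · exact h (by simpa [hP] using congrArg (fun q : ℝ[X] => q.coeff 2) e)
    · exact h (by simpa [hP] using congrArg (fun q : ℝ[X] => q.coeff 1) e)
  exact (((Polynomial.finite_setOfPred_isRoot hne).subset fun y hy => by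
    simpa [hP, IsRoot] using hy).measure_zero _)

lemma countable_of_tiling {F : Fin 2 → Finset (ℝ × ℤ)} (hF : (F 0).Nonempty)
    {A : Set (ℝ × ℝ)} (h : Tiling (body F) A) : A.Countable := by
  obtain ⟨hm, -, hpos⟩ := body_facts hF
  have : (volume : Measure (ℝ × ℝ)).IsAddHaarMeasure := by
    rw [Measure.volume_eq_prod]; infer_instance
  have hv : ∀ a : A, 0 < volume {z : ℝ × ℝ | z - (a : ℝ × ℝ) ∈ body F} := fun a => by
    have e : {z : ℝ × ℝ | z - (a : ℝ × ℝ) ∈ body F} =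
        (fun z => z + -(a : ℝ × ℝ)) ⁻¹' body F := by
      ext z; simp [sub_eq_add_neg]
    rwa [e, measure_preimage_add_right]
  have hc := Measure.countable_meas_pos_of_disjoint_iUnion₀ (μ := (volume : Measure (ℝ × ℝ)))
    (As := fun a : A => {z | z - (a : ℝ × ℝ) ∈ body F})
    (fun a => ((measurable_id.sub_const _) hm).nullMeasurableSet)
    (fun a b hab => h.2 a a.2 b b.2 fun e => hab (Subtype.ext e))
  have : {i : A | 0 < volume {z : ℝ × ℝ | z - (i : ℝ × ℝ) ∈ body F}} = univ :=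
    eq_univ_of_forall hv
  rw [this, countable_univ_iff] at hc
  exact countable_coe_iff.1 hc

/-- If almost every point lies in exactly one of countably many prisms, then on almost every
horizontal line the unit intervals form one coset and all of them belong to one row of one band. -/
lemma lines_of_good {ι : Type*} [Countable ι] (band : ι → Fin 2) (S : ι → ℝ × ℝ)
    (hgood : ∀ᵐ z, ∃! i, z - S i ∈ prism (band i)) :
    (∀ᵐ y : ℝ, ∃ ψ : ℝ,
      (∀ i : {i // y - (S i).2 ∈ K (band i)},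
        ∃ z : ℤ, (S i).1 + curv (band i) * (y - (S i).2) ^ 2 = ψ + z) ∧
      ∀ z : ℤ, ∃! i : {i // y - (S i).2 ∈ K (band i)},
        (S i).1 + curv (band i) * (y - (S i).2) ^ 2 = ψ + z) ∧
    ∀ᵐ y : ℝ, ∃! q : Fin 2 × ℝ,
      q.2 ∈ {r | ∃ i, band i = q.1 ∧ (S i).2 = r} ∧ y - q.2 ∈ K q.1 := by
  -- on almost every horizontal line the unit intervals form one coset
  set c : ι → ℝ → ℝ := fun i y => (S i).1 + curv (band i) * (y - (S i).2) ^ 2 with hc
  have hline : ∀ᵐ y : ℝ, ∃ ψ : ℝ,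
      (∀ i : {i // y - (S i).2 ∈ K (band i)}, ∃ z : ℤ, c i y = ψ + z) ∧
      ∀ z : ℤ, ∃! i : {i // y - (S i).2 ∈ K (band i)}, c i y = ψ + z := by
    have h1 : ∀ᵐ w : ℝ × ℝ, ∃! i, w.swap - S i ∈ prism (band i) :=
      (Measure.measurePreserving_swap (μ := (volume : Measure ℝ))
        (ν := (volume : Measure ℝ))).quasiMeasurePreserving.ae hgood
    filter_upwards [Measure.ae_ae_of_ae_prod h1] with y hy
    refine R3.exists_coset (fun i : {i // y - (S i).2 ∈ K (band i)} => c i y) ?_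
    filter_upwards [hy] with x hx
    have key : ∀ i, (x, y) - S i ∈ prism (band i) ↔
        y - (S i).2 ∈ K (band i) ∧ x ∈ Ico (c i y) (c i y + 1) := fun i => by
      simp only [prism, mem_ofPred_eq, Prod.fst_sub, Prod.snd_sub, hc, mem_Ico]
      constructor <;> rintro ⟨h1, h2, h3⟩ <;> exact ⟨h1, by linarith, by linarith⟩
    obtain ⟨i, hi, hiu⟩ := hx
    exact ⟨⟨i, ((key i).1 hi).1⟩, ((key i).1 hi).2,
      fun j hj => Subtype.ext (hiu _ ((key j).2 ⟨j.2, hj⟩))⟩
  have hnull : ∀ᵐ y : ℝ, ∀ i j, ∀ z : ℤ, (band i, (S i).2) ≠ (band j, (S j).2) →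
      c i y - c j y ≠ z := by
    refine ae_all_iff.2 fun i => ae_all_iff.2 fun j => ae_all_iff.2 fun z => ?_
    rcases eq_or_ne (band i, (S i).2) (band j, (S j).2) with hij | hij
    · exact Filter.Eventually.of_forall fun y hne => absurd hij hne
    have hcoef : curv (band i) - curv (band j) ≠ 0 ∨
        (-2 : ℝ) * (curv (band i) * (S i).2 - curv (band j) * (S j).2) ≠ 0 := by
      by_cases hb : band i = band j
      · refine Or.inr (mul_ne_zero (by norm_num) ?_)
        rw [hb, ← mul_sub]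
        refine mul_ne_zero ?_ (sub_ne_zero.2 fun e => hij (Prod.ext hb e))
        rcases Fin.exists_fin_two.1 ⟨band j, rfl⟩ with e | e <;> simp [e, curv]
      · refine Or.inl ?_
        rcases Fin.exists_fin_two.1 ⟨band i, rfl⟩ with e | e <;>
          rcases Fin.exists_fin_two.1 ⟨band j, rfl⟩ with e' | e' <;>
          simp_all [curv] <;> norm_num
    have h0 := volume_quadratic (c := (S i).1 + curv (band i) * (S i).2 ^ 2 -
      ((S j).1 + curv (band j) * (S j).2 ^ 2) - z) hcoef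
    filter_upwards [compl_mem_ae_iff.2 h0] with y hy _ he
    refine hy ?_
    simp only [mem_ofPred_eq, hc] at he ⊢
    linear_combination he
  -- the rows of both bands form one coset
  set R : Fin 2 → Set ℝ := fun m => {r | ∃ i, band i = m ∧ (S i).2 = r} with hR
  have hcell : ∀ᵐ y : ℝ, ∃! q : Fin 2 × ℝ, q.2 ∈ R q.1 ∧ y - q.2 ∈ K q.1 := by
    filter_upwards [hline, hnull] with y hy hy'
    obtain ⟨ψ, h1, h2⟩ := hy
    obtain ⟨i, -, -⟩ := h2 0
    refine ⟨(band i, (S i).2), ⟨⟨i, rfl, rfl⟩, i.2⟩, ?_⟩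
    rintro ⟨m, r⟩ ⟨⟨j, hjm, hjr⟩, hj⟩
    simp only at hjm hjr hj
    subst hjm hjr
    by_contra hne
    obtain ⟨z, hz⟩ := h1 i
    obtain ⟨z', hz'⟩ := h1 ⟨j, hj⟩
    refine hy' j i (z' - z) hne ?_
    simp only at hz'
    push_cast
    linarith
  exact ⟨hline, hcell⟩

theorem sys_of_tiling {F : Fin 2 → Finset (ℝ × ℤ)} (hinj : ∀ m, InjOn Prod.snd (F m : Set (ℝ × ℤ)))
    (hF : (F 0).Nonempty) {A : Set (ℝ × ℝ)} (h : Tiling (body F) A) :
    ∃ (o : ℝ × ℝ) (B : Set (ℝ × ℤ)), Sys F B ∧ A = (fun b => o + pt b) '' B := by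
  have := (countable_of_tiling hF h).to_subtype
  let Q := Σ m : Fin 2, {p // p ∈ F m}
  set S : A × Q → ℝ × ℝ := fun i => (i.1 : ℝ × ℝ) + pt (i.2.2 : ℝ × ℤ) with hS
  set band : A × Q → Fin 2 := fun i => i.2.1 with hband
  -- almost every point lies in exactly one prism
  have hdisj : ∀ i j, i ≠ j →
      ∀ᵐ z, ¬(z - S i ∈ prism (band i) ∧ z - S j ∈ prism (band j)) := by
    rintro ⟨⟨a, ha⟩, ⟨m, p, hp⟩⟩ ⟨⟨b, hb⟩, ⟨m', p', hp'⟩⟩ hne
    rw [ae_iff]
    rcases eq_or_ne a b with rfl | hab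
    · refine measure_mono_null (fun z hz => ?_) measure_empty
      simp only [mem_ofPred_eq, not_not, hS, hband] at hz
      have key : ∀ (k : Fin 2) (q : ℝ × ℤ), z - (a + pt q) ∈ prism k →
          (z.2 - a.2) - ((k, q.2) : Fin 2 × ℤ).2 ∈ K k := fun k q hq => by
        have := hq.1
        simp only [pt, Prod.snd_sub, Prod.snd_add] at this
        simpa [sub_sub] using this
      have e := (existsUnique_cell (z.2 - a.2)).unique (y₁ := (m, p.2)) (y₂ := (m', p'.2))
        (key m p hz.1) (key m' p' hz.2)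
      simp only [Prod.mk.injEq] at e
      obtain ⟨rfl, e2⟩ := e
      have := hinj m hp hp' e2
      subst this
      exact (hne rfl).elim
    · refine measure_mono_null (fun z hz => ?_) (h.2 a ha b hb hab)
      simp only [mem_ofPred_eq, not_not, hS, hband] at hz
      exact ⟨⟨m, p, hp, by rw [sub_sub]; exact hz.1⟩, ⟨m', p', hp', by rw [sub_sub]; exact hz.2⟩⟩
  have hgood : ∀ᵐ z, ∃! i, z - S i ∈ prism (band i) := by
    have hall : ∀ᵐ z, ∀ i j, i ≠ j →
        ¬(z - S i ∈ prism (band i) ∧ z - S j ∈ prism (band j)) := by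
      refine ae_all_iff.2 fun i => ae_all_iff.2 fun j => ?_
      rcases eq_or_ne i j with hij | hij
      · exact Filter.Eventually.of_forall fun z hne => absurd hij hne
      · exact (hdisj i j hij).mono fun z hz _ => hz
    filter_upwards [h.1, hall] with z hz hu
    obtain ⟨a, ha, m, p, hp, hzp⟩ := hz
    have hz0 : z - S (⟨a, ha⟩, ⟨m, p, hp⟩) ∈ prism (band (⟨a, ha⟩, ⟨m, p, hp⟩)) := by
      simp only [hS, hband]; rwa [← sub_sub]
    exact ⟨_, hz0, fun j hj => by_contra fun hne => hu j _ hne ⟨hj, hz0⟩⟩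
  obtain ⟨hline, hcell⟩ := lines_of_good band S hgood
  set R : Fin 2 → Set ℝ := fun m => {r | ∃ i, band i = m ∧ (S i).2 = r} with hR
  set c : A × Q → ℝ → ℝ := fun i y => (S i).1 + curv (band i) * (y - (S i).2) ^ 2 with hc
  have hup : ∀ M : ℝ, ∃ r ∈ R 0, M ≤ r := by
    intro M
    obtain ⟨p₀, hp₀⟩ := hF
    obtain ⟨C, hC⟩ := (((Finset.univ : Finset (Fin 2)).biUnion F).image fun p => p.2).exists_le
    obtain ⟨y, hy, ⟨m, r⟩, ⟨⟨⟨a, m', p, hp⟩, -, hr⟩, hk⟩, -⟩ :=
      exists_of_ae hcell (T := Ioo (M - p₀.2 + C + 2) (M - p₀.2 + C + 3)) (by simp; norm_num)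
    simp only at hk hr
    refine ⟨(S (a, ⟨0, p₀, hp₀⟩)).2, ⟨(a, ⟨0, p₀, hp₀⟩), rfl, rfl⟩, ?_⟩
    have hpC : (p.2 : ℝ) ≤ C := by
      exact_mod_cast hC p.2 (Finset.mem_image.2
        ⟨p, Finset.mem_biUnion.2 ⟨m', Finset.mem_univ _, hp⟩, rfl⟩)
    simp only [hS, pt, Prod.snd_add] at hr ⊢
    linarith [(K_bounds hk).2, hy.1]
  obtain ⟨o, ho⟩ := lattice_of_cells hcell hup
  have hrow : ∀ i, ∃ r : ℤ, (S i).2 = o + r := fun i => by
    have : (S i).2 ∈ R (band i) := ⟨i, rfl, rfl⟩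
    rw [ho] at this
    obtain ⟨r, hr⟩ := this
    exact ⟨r, hr.symm⟩
  refine ⟨(0, o), {b | ((0, o) : ℝ × ℝ) + pt b ∈ A}, fun m r => ?_, ?_⟩
  · set p : ℝ := o + r with hp
    -- an interval of lines inside the cell of row `r` of band `m`
    obtain ⟨T, hT, hTK⟩ : ∃ T : Set ℝ, 0 < volume T ∧ ∀ y ∈ T, y - p ∈ K m := by
      rcases Fin.exists_fin_two.1 ⟨m, rfl⟩ with e | e <;> subst e
      · exact ⟨Ioo p (p + 1 / 4), by simp, fun y hy =>
          mem_K0.2 (Or.inl ⟨by linarith [hy.1], by linarith [hy.2]⟩)⟩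
      · exact ⟨Ioo (p + 3 / 4) (p + 1), by simp; norm_num, fun y hy =>
          mem_K1.2 ⟨by linarith [hy.1], by linarith [hy.2]⟩⟩
    obtain ⟨y, hyT, ⟨ψ, h1, h2⟩, hyu⟩ := exists_of_ae (hline.and hcell) hT
    have hyp := hTK y hyT
    set K' := curv m * (y - p) ^ 2 with hK
    have hmemS : p ∈ R m := by rw [ho]; exact ⟨r, rfl⟩
    have hI : ∀ i, y - (S i).2 ∈ K (band i) → band i = m ∧ (S i).2 = p := fun i hi => by
      have := hyu.unique (y₁ := (band i, (S i).2)) (y₂ := (m, p))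
        ⟨⟨i, rfl, rfl⟩, hi⟩ ⟨hmemS, hyp⟩
      simpa [Prod.ext_iff] using this
    have hY : ∀ i, band i = m → (S i).2 = p → y - (S i).2 ∈ K (band i) := fun i e1 e2 => by
      rw [e1, e2]; exact hyp
    -- a position of the system in row `r` is a prism position at height `p`
    have toS : ∀ b ∈ {b | ((0, o) : ℝ × ℝ) + pt b ∈ A}, ∀ f, ∀ hf : f ∈ F m, b.2 + f.2 = r →
        ∃ i : A × Q, (i.1 : ℝ × ℝ) = (0, o) + pt b ∧ i.2 = ⟨m, f, hf⟩ ∧
          band i = m ∧ (S i).2 = p ∧ c i y = b.1 + f.1 + K' := by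
      intro b hb f hf e
      have e2 : (S (⟨(0, o) + pt b, hb⟩, ⟨m, f, hf⟩)).2 = p := by
        simp [hS, hp, pt, ← e]; ring
      refine ⟨(⟨_, hb⟩, ⟨m, f, hf⟩), rfl, rfl, rfl, e2, ?_⟩
      simp only [hc, e2, hK, hband]
      simp [hS, pt]
    refine ⟨ψ - K', fun b hb f hf e => ?_, fun z => ?_⟩
    · obtain ⟨i, -, -, him, hi, hci⟩ := toS b hb f hf e
      obtain ⟨z, hz⟩ := h1 ⟨i, hY i him hi⟩
      exact ⟨z, by simp only [hc] at hci; simp only at hz; linarith⟩
    · obtain ⟨⟨⟨⟨a, ha⟩, ⟨m', f, hf⟩⟩, hi⟩, hci, hiu⟩ := h2 z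
      obtain ⟨hm', hap⟩ := hI _ hi
      simp only [hband] at hm'
      subst hm'
      set b : ℝ × ℤ := (a.1, r - f.2) with hb
      have hab : ((0, o) : ℝ × ℝ) + pt b = a := by
        simp [hS, hp, pt] at hap
        refine Prod.ext (by simp [pt, hb]) ?_
        simp [pt, hb]; linarith
      refine ⟨(b, f), ⟨by rw [mem_ofPred_eq, hab]; exact ha, hf, sub_add_cancel _ _, ?_⟩, ?_⟩
      · simp only [hap, hband] at hci
        simp [hS, pt] at hci
        simp only [hK, hb]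
        linarith
      · rintro ⟨b', f'⟩ ⟨hb', hf', e, e1⟩
        obtain ⟨i, hia, hif, him, hi2, hci'⟩ := toS b' hb' f' hf' e
        have hi' := congrArg Subtype.val (hiu ⟨i, hY i him hi2⟩ (show c i y = ψ + z by
          rw [hci']
          simp only at e1
          linarith))
        simp only at hi'
        rw [hi'] at hia hif
        obtain rfl : f = f' := congrArg (fun q : Q => (q.2 : ℝ × ℤ)) hif
        refine Prod.ext (Prod.ext ?_ ?_) rfl
        · simpa [hb, pt] using (congrArg Prod.fst hia).symm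
        · simp only [hb]
          exact eq_sub_of_add_eq e
  · ext a
    constructor
    · intro ha
      obtain ⟨f, hf⟩ := hF
      obtain ⟨r, hr⟩ := hrow (⟨a, ha⟩, ⟨0, f, hf⟩)
      have e : ((0, o) : ℝ × ℝ) + pt (a.1, r - f.2) = a := by
        simp [hS, pt] at hr
        refine Prod.ext (by simp [pt]) ?_
        simp [pt]; linarith
      exact ⟨(a.1, r - f.2), by rw [mem_ofPred_eq, e]; exact ha, e⟩
    · rintro ⟨b, hb, rfl⟩
      exact hb

end Vale.Agent.P043.R2
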