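import Vale.Agent.P043.R2.Defs

/-!
Helper for P043 (aperiodic tile of the plane): tables describing the tori of one side.
Six moduli `l i`; band `m` has windows at the three axes with `side i = m`, multiples at the others.
-/

namespace Vale.Agent.P043.R2

open Set

/-- The band in which the axis `i` has windows. -/
def side (i : Fin 6) : Fin 2 := if i.val < 3 then 0 else 1

/-- Residues modulo the six primes. -/
abbrev Low (l : Fin 6 → ℕ) : Type := (i : Fin 6) → Fin (l i)

/-- Residues modulo the six squares. -/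
abbrev Grp (l : Fin 6 → ℕ) : Type := (i : Fin 6) → ZMod (l i ^ 2)

/-- `a` carries the digits `t` of band `m`: windows at the axes of the band, multiples at the
others. -/
def HasDigits {l : Fin 6 → ℕ} (φ : ℤ →+ Grp l) (m : Fin 2) (a : ℤ) (t : Low l) : Prop :=
  ∀ i, φ a i = if side i = m then ((t i).val : ZMod (l i ^ 2)) else ((l i * (t i).val : ℕ) : ZMod (l i ^ 2))

/-- A side in standard form: band `m` consists of one integer per digit vector, and its colour is
congruent to each digit. -/
structure Standard (l : Fin 6 → ℕ) (S : Side (Grp l)) : Prop where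
  digits : ∀ m, ∀ a ∈ S.A m, ∃ t, HasDigits S.φ m a t
  exists_rep : ∀ m (t : Low l), ∃ a ∈ S.A m, HasDigits S.φ m a t
  unique_rep : ∀ m, InjOn S.φ (S.A m : Set ℤ)
  colour : ∀ m, ∀ a ∈ S.A m, ∀ t, HasDigits S.φ m a t →
    ∀ i, (S.v m a : ZMod (l i)) = ((t i).val : ZMod (l i))

/-- The class of a point in band `m`: the residues at the axes of the other band. -/
def cls {l : Fin 6 → ℕ} [∀ i, NeZero (l i)] (m : Fin 2) (x : Low l) : Low l :=
  fun i => if side i = m then 0 else x i

/-- The table of one torus: the axis, the residues at the other axes, the pools (size and the list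
of residues on the axis), and the number of fixed columns of each residue. -/
structure Torus where
  axis : Fin 6
  base : Fin 6 → ℕ
  pools : List (ℕ × List ℕ)
  fix : ℕ → ℕ

/-- `x` lies on the line of the torus `T` in band `m`. -/
def Torus.OnLine {l : Fin 6 → ℕ} (T : Torus) (m : Fin 2) (x : Low l) : Prop :=
  ∀ i, side i = m → i ≠ T.axis → (x i).val = T.base i

instance {l : Fin 6 → ℕ} (T : Torus) (m : Fin 2) (x : Low l) : Decidable (T.OnLine m x) := by
  unfold Torus.OnLine; infer_instance

/-- The boxes of fixed phase at `x`. -/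
def Torus.fixed {l : Fin 6 → ℕ} (T : Torus) (m : Fin 2) (x : Low l) : ℕ :=
  if T.OnLine m x then l T.axis * T.fix (x T.axis).val else 0

/-- The boxes that the pools need at `x` in the other band. -/
def Torus.slots {l : Fin 6 → ℕ} (T : Torus) (m : Fin 2) (x : Low l) : ℕ :=
  if T.OnLine m x then (T.pools.map fun q => q.1 * q.2.count (x T.axis).val).sum else 0

/-- Conditions on a table of tori, indexed by band and class. -/
structure TableOK (l : Fin 6 → ℕ) [∀ i, NeZero (l i)] (tab : Fin 2 → Low l → Torus) : Prop where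
  axis : ∀ m c, cls m c = c → side (tab m c).axis = m
  base : ∀ m c, cls m c = c → ∀ i, (tab m c).base i < l i
  lists : ∀ m c, cls m c = c → ∀ q ∈ (tab m c).pools,
    q.2.length = l (tab m c).axis ∧ ∀ z ∈ q.2, z < l (tab m c).axis
  columns : ∀ m c, cls m c = c →
    l (tab m c).axis * (((tab m c).pools.map Prod.fst).sum +
        ∑ z ∈ Finset.range (l (tab m c).axis), (tab m c).fix z) =
      ∏ i : Fin 6, if side i = m then l i else 1
  total : ∀ x, (tab 0 (cls 0 x)).fixed 0 x + (tab 0 (cls 0 x)).slots 0 x =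
    (tab 1 (cls 1 x)).fixed 1 x + (tab 1 (cls 1 x)).slots 1 x
  room : ∀ x, (tab 0 (cls 0 x)).slots 0 x ≤ (tab 1 (cls 1 x)).fixed 1 x

/-- The interface from tables to cells: every table gives a partition into cells whose pools have
moduli and sizes from a given list. -/
def CellsStep : Prop :=
  ∀ (l : Fin 6 → ℕ) [∀ i, NeZero (l i)] (S : Side (Grp l)) (k : ℕ) [NeZero k]
    (tab : Fin 2 → Low l → Torus) (PK : List (ℕ × ℕ)),
    (∀ i, (l i).Prime) → (∀ i, l i ∣ k) → Standard l S → TableOK l tab →
    (∀ m c, cls m c = c → ∀ q ∈ (tab m c).pools, (l (tab m c).axis, q.1) ∈ PK) →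
    ∃ C : Cells S k, ∀ π, (C.l π, C.size π) ∈ PK

/-- The statement of the composition: two sides with tables, disjoint residues and glueable pool
sizes give a system of translates. -/
def SystemStep : Prop :=
  ∀ (l l' : Fin 6 → ℕ) [∀ i, NeZero (l i)] [∀ i, NeZero (l' i)]
    (S : Side (Grp l)) (T : Side (Grp l'))
    (tab : Fin 2 → Low l → Torus) (tab' : Fin 2 → Low l' → Torus) (PK PK' : List (ℕ × ℕ)),
    (∀ i, (l i).Prime) → (∀ i, (l' i).Prime) → Standard l S → Standard l' T →
    TableOK l tab → TableOK l' tab' →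
    (∀ m c, cls m c = c → ∀ q ∈ (tab m c).pools, (l (tab m c).axis, q.1) ∈ PK) →
    (∀ m c, cls m c = c → ∀ q ∈ (tab' m c).pools, (l' (tab' m c).axis, q.1) ∈ PK') →
    (∀ m, ∀ b ∈ T.A m, S.φ b = 0) → (∀ m, ∀ a ∈ S.A m, T.φ a = 0) →
    (∀ p ∈ PK, ∀ q ∈ PK', Glues p.1 p.2 q.1 q.2) →
    ∃ B, Sys (spots S.A T.A fun m f => S.v m f.1 + T.v m f.2) B

theorem systemStep_of (hg : GlueStep) (hc : CellsStep) : SystemStep := by
  intro l l' _ _ S T tab tab' PK PK' hl hl' hS hT ht ht' hP hP' hST hTS hG
  let k : ℕ := (∏ i, l i) * ∏ i, l' i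
  haveI : NeZero k := ⟨Nat.mul_ne_zero (Finset.prod_ne_zero_iff.2 fun i _ => (hl i).ne_zero)
    (Finset.prod_ne_zero_iff.2 fun i _ => (hl' i).ne_zero)⟩
  obtain ⟨C, hC⟩ := hc l S k tab PK hl
    (fun i => dvd_mul_of_dvd_left (Finset.dvd_prod_of_mem _ (Finset.mem_univ i)) _) hS ht hP
  obtain ⟨D, hD⟩ := hc l' T k tab' PK' hl'
    (fun i => dvd_mul_of_dvd_right (Finset.dvd_prod_of_mem _ (Finset.mem_univ i)) _) hT ht' hP'
  exact hg (Grp l) (Grp l') S T k C D hST hTS fun π π' => hG _ (hC π) _ (hD π')

end Vale.Agent.P043.R2
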