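import Vale.Agent.P043.R2.Boxes

/-!
Helper for P043 (aperiodic tile of the plane): in each band, the boxes of fixed phase and the free
columns of a table split the group.
-/

namespace Vale.Agent.P043.R2

open Set

variable {l : Fin 6 → ℕ} [∀ i, NeZero (l i)] {tab : Fin 2 → Low l → Torus}
  (ht : TableOK l tab) {m : Fin 2}

/-- The classes of a band. -/
abbrev Cls (l : Fin 6 → ℕ) [∀ i, NeZero (l i)] (m : Fin 2) : Type := {c : Low l // cls m c = c}

/-- The table of a class. -/
abbrev tor (tab : Fin 2 → Low l → Torus) {m : Fin 2} (c : Cls l m) : Torus := tab m c.1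

/-- The number of phases of a class. -/
abbrev len (tab : Fin 2 → Low l → Torus) {m : Fin 2} (c : Cls l m) : ℕ := l (tor tab c).axis

/-- The axes of the columns of a torus. -/
def Active (T : Torus) (m : Fin 2) (i : Fin 6) : Prop := side i = m ∧ i ≠ T.axis

instance (T : Torus) (m : Fin 2) : DecidablePred (Active T m) := fun i => by
  unfold Active; infer_instance

/-- The columns of a torus. -/
abbrev Col (T : Torus) (m : Fin 2) (l : Fin 6 → ℕ) [∀ i, NeZero (l i)] : Type :=
  {h : Low l // ∀ i, ¬ Active T m i → h i = 0}

/-- The units of a class: a pool and a number in it. -/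
abbrev Units (tab : Fin 2 → Low l → Torus) {m : Fin 2} (c : Cls l m) : Type :=
  (q : Fin (tor tab c).pools.length) × Fin ((tor tab c).pools.get q).1

/-- The columns of fixed phase of a class: a phase and a number. -/
abbrev FixCol (tab : Fin 2 → Low l → Torus) {m : Fin 2} (c : Cls l m) : Type :=
  (z : Fin (len tab c)) × Fin ((tor tab c).fix z.val)

theorem card_col (T : Torus) (h : side T.axis = m) :
    l T.axis * Fintype.card (Col T m l) = ∏ i : Fin 6, if side i = m then l i else 1 := by
  have h1 : Fintype.card (Col T m l) =
      (Fintype.piFinset fun i => if Active T m i then (Finset.univ : Finset (Fin (l i)))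
        else {0}).card := by
    refine Fintype.card_of_subtype _ fun x => ?_
    rw [Fintype.mem_piFinset]
    refine forall_congr' fun i => ?_
    by_cases hi : Active T m i <;> simp [hi]
  rw [h1, Fintype.card_piFinset, ← Finset.mul_prod_erase Finset.univ
    (fun i => if side i = m then l i else 1) (Finset.mem_univ T.axis), if_pos h]
  congr 1
  rw [← Finset.mul_prod_erase Finset.univ _ (Finset.mem_univ T.axis)]
  rw [if_neg (fun hh => hh.2 rfl), Finset.card_singleton, one_mul]
  refine Finset.prod_congr rfl fun i hi => ?_
  have hne := Finset.ne_of_mem_erase hi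
  by_cases hs : side i = m
  · rw [if_pos hs, if_pos ⟨hs, hne⟩, Finset.card_univ, Fintype.card_fin]
  · rw [if_neg hs, if_neg fun hh => hs hh.1, Finset.card_singleton]

include ht in
theorem col_equiv (c : Cls l m) :
    Nonempty (Col (tor tab c) m l ≃ Units tab c ⊕ FixCol tab c) := by
  refine ⟨Fintype.equivOfCardEq (Nat.eq_of_mul_eq_mul_left (NeZero.pos (len tab c)) ?_)⟩
  rw [card_col _ (ht.axis m c.1 c.2), Fintype.card_sum, Fintype.card_sigma, Fintype.card_sigma,
    ← ht.columns m c.1 c.2]
  congr 1
  simp only [Fintype.card_fin]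
  congr 1
  · show ((tor tab c).pools.map Prod.fst).sum = _
    conv_lhs => rw [← List.ofFn_get (tor tab c).pools, List.map_ofFn, List.sum_ofFn]
    rfl
  · exact (Fin.sum_univ_eq_sum_range (fun z => (tor tab c).fix z) (len tab c)).symm

/-- A chosen numbering of the columns. -/
noncomputable def ecol (c : Cls l m) : Col (tor tab c) m l ≃ Units tab c ⊕ FixCol tab c :=
  (col_equiv ht c).some

/-- The residue of slot `i` of a pool. -/
def zres (c : Cls l m) (q : Fin (tor tab c).pools.length) (i : Fin (len tab c)) :
    Fin (len tab c) :=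
  ⟨((tor tab c).pools.get q).2.getD i.val 0, by
    obtain ⟨h1, h2⟩ := ht.lists m c.1 c.2 _ ((tor tab c).pools.get_mem q)
    rw [List.getD_eq_getElem _ _ (by rw [h1]; exact i.isLt)]
    exact h2 _ (List.getElem_mem _)⟩

/-- The residues of the line of a class at phase `z`. -/
def line (c : Cls l m) (z : Fin (len tab c)) : Low l := fun i =>
  if side i = m then
    if e : i = (tor tab c).axis then e ▸ z else ⟨(tor tab c).base i, ht.base m c.1 c.2 i⟩
  else c.1 i

theorem line_axis (c : Cls l m) (z : Fin (len tab c)) : line ht c z (tor tab c).axis = z := by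
  unfold line
  rw [if_pos (ht.axis m c.1 c.2), dif_pos rfl]

theorem line_ne (c : Cls l m) (z z' : Fin (len tab c)) {i : Fin 6} (h : i ≠ (tor tab c).axis) :
    line ht c z i = line ht c z' i := by
  unfold line
  split_ifs <;> rfl

theorem cls_line (c : Cls l m) (z : Fin (len tab c)) : cls m (line ht c z) = c.1 := by
  funext i
  conv_rhs => rw [← c.2]
  unfold cls line
  split_ifs <;> rfl

theorem onLine_line (c : Cls l m) (z : Fin (len tab c)) :
    (tor tab c).OnLine m (line ht c z) := by
  intro i hi hne
  unfold line
  rw [if_pos hi, dif_neg hne]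

theorem eq_line {x : Low l} {c : Cls l m} (hc : cls m x = c.1) (hx : (tor tab c).OnLine m x) :
    x = line ht c (x (tor tab c).axis) := by
  funext i
  by_cases hi : side i = m
  · by_cases e : i = (tor tab c).axis
    · subst e; rw [line_axis]
    · refine Fin.ext ?_
      unfold line
      rw [if_pos hi, dif_neg e]
      exact hx i hi e
  · unfold line
    rw [if_neg hi, ← hc]
    exact (if_neg hi).symm

/-- Boxes of fixed phase of a band. -/
abbrev Fixed (tab : Fin 2 → Low l → Torus) (m : Fin 2) : Type :=
  (c : Cls l m) × FixCol tab c × Fin (len tab c)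

/-- Slots that the units of a band need in the other band. -/
abbrev Slot (tab : Fin 2 → Low l → Torus) (m : Fin 2) : Type :=
  (c : Cls l m) × Units tab c × Fin (len tab c)

/-- The residues of a fixed box. -/
def key (f : Fixed tab m) : Low l := line ht f.1 f.2.1.1

/-- The residues of a slot. -/
def slotKey (s : Slot tab m) : Low l := line ht s.1 (zres ht s.1 s.2.1.1 s.2.2)

/-- The high digits of a fixed box. -/
noncomputable def high (f : Fixed tab m) : Low l :=
  Function.update ((ecol ht f.1).symm (Sum.inr f.2.1)).1 (tor tab f.1).axis f.2.2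

/-- The free column of a unit. -/
def InCol (c : Cls l m) (h : Low l) (g : Grp l) : Prop :=
  ∀ i, i ≠ (tor tab c).axis → Cond m i (g i) (line ht c 0 i) (h i)

theorem inBox_line (c : Cls l m) (z H : Fin (len tab c)) (h : Low l) (g : Grp l) :
    InBox m g (line ht c z) (Function.update h (tor tab c).axis H) ↔
      InCol ht c h g ∧ Cond m _ (g (tor tab c).axis) z H := by
  constructor
  · intro hb
    refine ⟨fun i hi => ?_, ?_⟩
    · have := hb i
      rwa [Function.update_of_ne hi, line_ne ht c z 0 hi] at this
    · have := hb (tor tab c).axis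
      rwa [Function.update_self, line_axis] at this
  · rintro ⟨h1, h2⟩ i
    by_cases hi : i = (tor tab c).axis
    · subst hi; rw [Function.update_self, line_axis]; exact h2
    · rw [Function.update_of_ne hi, line_ne ht c z 0 hi]; exact h1 i hi

/-- Every point lies in exactly one column. -/
theorem exists_col (m : Fin 2) (g : Grp l) :
    ∃! p : (c : Cls l m) × Col (tor tab c) m l, InCol ht p.1 p.2.1 g := by
  let x : Low l := fun i => ⟨(red i (g i)).val, ZMod.val_lt _⟩
  have hx : ∀ i, red i (g i) = ((x i).val : ZMod (l i)) := fun i =>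
    (ZMod.natCast_rightInverse _).symm
  let c : Cls l m := ⟨cls m x, by funext i; unfold cls; split_ifs <;> rfl⟩
  choose h hh huniq using fun i => window (g i) (line ht c 0 i)
  let h' : Col (tor tab c) m l :=
    ⟨fun i => if Active (tor tab c) m i then h i else 0, fun i hi => if_neg hi⟩
  refine ⟨⟨c, h'⟩, fun i hi => ?_, ?_⟩
  · unfold Cond
    by_cases hs : side i = m
    · rw [if_pos hs]
      simp only [h', if_pos (show Active (tor tab c) m i from ⟨hs, hi⟩)]
      exact hh i
    · rw [if_neg hs]
      rw [hx i]
      unfold line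
      rw [if_neg hs]
      show _ = (((cls m x) i).val : ZMod (l i))
      rw [cls, if_neg hs]
  · rintro ⟨c2, h2⟩ hp
    obtain rfl : c2 = c := by
      refine Subtype.ext (funext fun i => ?_)
      show c2.1 i = cls m x i
      conv_lhs => rw [← c2.2]
      unfold cls
      split_ifs with hs
      · rfl
      · have hne : i ≠ (tor tab c2).axis := fun e => hs (e ▸ ht.axis m c2.1 c2.2)
        have := hp i hne
        unfold Cond at this
        rw [if_neg hs, hx i] at this
        unfold line at this
        rw [if_neg hs] at this
        exact (natCast_inj_fin this).symm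
    refine congrArg (Sigma.mk c) (Subtype.ext (funext fun i => ?_))
    show h2.1 i = if Active (tor tab c) m i then h i else 0
    split_ifs with hi
    · refine huniq i _ ?_
      have := hp i hi.2
      unfold Cond at this
      rwa [if_pos hi.1] at this
    · exact h2.2 i hi

/-- In each band the fixed boxes and the free columns split the group. -/
theorem band_partition (m : Fin 2) (g : Grp l) :
    ∃! p : Fixed tab m ⊕ (c : Cls l m) × Units tab c,
      Sum.elim (fun f => InBox m g (key ht f) (high ht f))
        (fun u => InCol ht u.1 ((ecol ht u.1).symm (Sum.inl u.2)).1 g) p := by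
  obtain ⟨⟨c, h⟩, hh, hu⟩ := exists_col ht m g
  have same : ∀ (c' : Cls l m) v, InCol ht c' ((ecol ht c').symm v).1 g →
      (⟨c', v⟩ : (c : Cls l m) × (Units tab c ⊕ FixCol tab c)) = ⟨c, ecol ht c h⟩ := by
    intro c' v hv
    have := hu ⟨c', (ecol ht c').symm v⟩ hv
    cases this
    simp
  cases hv : ecol ht c h with
  | inl u =>
    have hsym : (ecol ht c).symm (Sum.inl u) = h := by rw [← hv]; simp
    refine ⟨Sum.inr ⟨c, u⟩, ?_, ?_⟩
    · show InCol ht c _ g
      rw [hsym]; exact hh
    · rintro (⟨c', zn, H⟩ | ⟨c', u'⟩) hp
      · have := same c' (Sum.inr zn) ((inBox_line ht c' zn.1 H _ g).1 hp).1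
        rw [hv] at this
        cases this
      · have := same c' (Sum.inl u') hp
        rw [hv] at this
        cases this
        rfl
  | inr zn =>
    have hsym : (ecol ht c).symm (Sum.inr zn) = h := by rw [← hv]; simp
    obtain ⟨H, hH, hHu⟩ := window (g (tor tab c).axis) zn.1
    have hcond : ∀ H', Cond m _ (g (tor tab c).axis) zn.1 H' ↔
        (g (tor tab c).axis - ((zn.1.val + len tab c * H'.val : ℕ) : ZMod _)).val < len tab c := by
      intro H'; unfold Cond; rw [if_pos (ht.axis m c.1 c.2)]
    refine ⟨Sum.inl ⟨c, zn, H⟩, ?_, ?_⟩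
    · show InBox m g (line ht c zn.1) (Function.update _ _ H)
      rw [inBox_line, hsym]
      exact ⟨hh, (hcond H).2 hH⟩
    · rintro (⟨c', zn', H'⟩ | ⟨c', u'⟩) hp
      · obtain ⟨h1, h2⟩ := (inBox_line ht c' zn'.1 H' _ g).1 hp
        have := same c' (Sum.inr zn') h1
        rw [hv] at this
        cases this
        rw [hHu H' ((hcond H').1 h2)]
      · have := same c' (Sum.inl u') hp
        rw [hv] at this
        cases this

end Vale.Agent.P043.R2
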