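import Vale.Agent.P043.R2.Table

/-!
Helper for P043 (aperiodic tile of the plane): the table of a side whose classes form a tree.
Axes 0, 1, 2 carry the residues of the classes of band 1 (tree nodes, numbered below the product
of the three moduli), axes 3, 4, 5 the coordinates `x, y, z` of the classes of band 0 (cells).
Nodes: 0 is the top, `1 + y` the hub of `y`, `1 + q₁ + (y q₂ + z) m + j` node `j` of row `(y, z)`.
Local names in the row `(y, z)`: 0 the top, 1 the hub, `2 + j` node `j`.
-/

namespace Vale.Agent.P043.R2

/-- A torus certificate of a cell: pools `(k, c)` with `c` slots at the first node, the others at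
the second, and the fixed columns at both nodes. -/
structure Cert0 where
  pools : List (ℕ × ℕ)
  f1 : ℕ
  f2 : ℕ

/-- A torus certificate of a node: pools with their residue lists and the fixed columns. -/
structure Cert1 where
  pools : List (ℕ × List ℕ)
  fix : List ℕ

/-- A side in tree form. Cell `(x, y, z)` meets the local nodes `prim x b` and `sec x b` with
weights `w1, w2`, where `b` says whether `z = z0`; `cap` is what the cell may use of a weight for
its pools. -/
structure Tree where
  p0 : ℕ
  p1 : ℕ
  p2 : ℕ
  q3 : ℕ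
  q1 : ℕ
  q2 : ℕ
  m : ℕ
  z0 : ℕ
  lab : ℕ → ℕ
  inv : ℕ → ℕ
  prim : ℕ → Bool → ℕ
  sec : ℕ → Bool → ℕ
  w1 : ℕ → Bool → ℕ
  w2 : ℕ → Bool → ℕ
  cap : ℕ → Bool → ℕ → ℕ
  cert0 : ℕ → Bool → ℕ → Cert0
  cert1 : ℕ → Bool → Cert1

namespace Tree

variable (t : Tree)

/-- The six moduli. -/
def mods : Fin 6 → ℕ := ![t.p0, t.p1, t.p2, t.q3, t.q1, t.q2]

/-- The number of nodes. -/
def P : ℕ := t.p0 * t.p1 * t.p2

/-- The number of cells. -/
def Q : ℕ := t.q3 * t.q1 * t.q2

/-- The global number of a local node in the row `(y, z)`. -/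
def node (y z L : ℕ) : ℕ :=
  match L with
  | 0 => 0
  | 1 => 1 + y
  | j + 2 => 1 + t.q1 + (y * t.q2 + z) * t.m + j

/-- The residue of a code at axis `i` (0, 1 or 2). -/
def digit (code i : ℕ) : ℕ :=
  match i with
  | 0 => code % t.p0
  | 1 => code / t.p0 % t.p1
  | _ => code / (t.p0 * t.p1) % t.p2

/-- The modulus at axis `i` (0, 1 or 2). -/
def mod3 (i : ℕ) : ℕ :=
  match i with
  | 0 => t.p0
  | 1 => t.p1
  | _ => t.p2

/-- The first axis at which two codes differ. -/
def axisOf (c d : ℕ) : ℕ :=
  if t.digit c 0 ≠ t.digit d 0 then 0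
  else if t.digit c 1 ≠ t.digit d 1 then 1
  else if t.digit c 2 ≠ t.digit d 2 then 2
  else 0

/-- The weight of a local node in a cell. -/
def wt (x : ℕ) (b : Bool) (L : ℕ) : ℕ :=
  if L = t.prim x b then t.w1 x b else if L = t.sec x b then t.w2 x b else 0

/-- The torus of the cell `(x, y, z)`. -/
def torus0 (x y z : ℕ) : Torus :=
  let b := z == t.z0
  let c := t.lab (t.node y z (t.prim x b))
  let d := t.lab (t.node y z (t.sec x b))
  let i := t.axisOf c d
  let C := t.cert0 x b i
  { axis := ⟨i % 3, by omega⟩
    base := fun j => if j.val < 3 then t.digit c j.val else 0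
    pools := C.pools.map fun q =>
      (q.1, List.replicate q.2 (t.digit c i) ++ List.replicate (t.mod3 i - q.2) (t.digit d i))
    fix := fun u => if u = t.digit c i then C.f1 else if u = t.digit d i then C.f2 else 0 }

/-- The local name of a node and its row. -/
def place (n : ℕ) : ℕ × ℕ × ℕ :=
  if n = 0 then (0, 0, 0)
  else if n < 1 + t.q1 then (1, n - 1, 0)
  else ((n - 1 - t.q1) % t.m + 2, (n - 1 - t.q1) / t.m / t.q2, (n - 1 - t.q1) / t.m % t.q2)

/-- The torus of the node with code `c`. -/
def torus1 (c : ℕ) : Torus :=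
  let p := t.place (t.inv c)
  let C := t.cert1 p.1 (if p.1 < 2 then true else p.2.2 == t.z0)
  { axis := if p.1 = 0 then 4 else if p.1 = 1 then 5 else 3
    base := fun j =>
      if j = 3 then (if p.1 = 0 then t.q3 - 1 else 0)
      else if j = 4 then p.2.1
      else if j = 5 then (if p.1 = 0 then t.z0 else p.2.2)
      else 0
    pools := C.pools
    fix := fun u => C.fix.getD u 0 }

/-- The table. -/
def table (m : Fin 2) (c : Low t.mods) : Torus :=
  if m = 0 then t.torus0 (c 3).val (c 4).val (c 5).val
  else t.torus1 ((c 0).val + t.p0 * ((c 1).val + t.p1 * (c 2).val))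

/-- The sizes, the numbering of the nodes and the labels. -/
def labelsOK : Bool :=
  decide (0 < t.m ∧ t.z0 < t.q2 ∧ t.P = 1 + t.q1 + t.q1 * t.q2 * t.m) &&
    (List.range t.P).all fun i => decide (t.lab i < t.P ∧ t.inv (t.lab i) = i)

/-- A local node may occur at position `x`. -/
def placeOK (x : ℕ) (b : Bool) (L : ℕ) : Bool :=
  if L = 0 then decide (x + 1 = t.q3) && b else if L = 1 then decide (x = 0) else decide (L < 2 + t.m)

/-- The numeric conditions of one cell certificate. -/
def cellCertOK (x : ℕ) (b : Bool) (i : ℕ) : Bool :=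
  let C := t.cert0 x b i
  let u := t.mod3 i
  let s := (C.pools.map fun q => q.1 * q.2).sum
  let s' := (C.pools.map fun q => q.1 * (u - q.2)).sum
  (C.pools.all fun q => decide (q.2 ≤ u)) && decide (s + u * C.f1 = t.w1 x b) &&
    decide (s' + u * C.f2 = t.w2 x b) && decide (s ≤ t.cap x b (t.prim x b)) &&
    decide (s' ≤ t.cap x b (t.sec x b))

/-- A cell with one node. -/
def fullOK (x : ℕ) (b : Bool) : Bool :=
  let C := t.cert0 x b 0
  decide (C.pools.length = 0 ∧ t.w2 x b = 0 ∧ t.p0 * C.f1 = t.w1 x b)

/-- A cell with two nodes on one line. -/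
def edgeOK (x : ℕ) (b : Bool) (y z : ℕ) : Bool :=
  let c := t.lab (t.node y z (t.prim x b))
  let d := t.lab (t.node y z (t.sec x b))
  let i := t.axisOf c d
  decide (t.digit c i ≠ t.digit d i) &&
    decide ((if t.digit c 0 = t.digit d 0 then 0 else 1) + (if t.digit c 1 = t.digit d 1 then 0 else 1) +
      (if t.digit c 2 = t.digit d 2 then 0 else 1) = 1) &&
    t.cellCertOK x b i

/-- All cells. -/
def cellsOK : Bool :=
  (List.range t.q3).all fun x => [true, false].all fun b =>
    t.placeOK x b (t.prim x b) && t.placeOK x b (t.sec x b) &&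
      decide (t.w1 x b + t.w2 x b = t.P) &&
        if t.prim x b = t.sec x b then t.fullOK x b
        else (List.range t.q1).all fun y =>
          (List.range t.q2).all fun z => !((z == t.z0) == b) || t.edgeOK x b y z

/-- The position in the cell grid of a line coordinate `u` of a local node. -/
def at' (L : ℕ) (b : Bool) (u : ℕ) : ℕ × Bool :=
  if L = 0 then (t.q3 - 1, true) else if L = 1 then (0, u == t.z0) else (u, b)

/-- The conditions of one node certificate. -/
def nodeOK (L : ℕ) (b : Bool) : Bool :=
  let C := t.cert1 L b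
  let n := if L = 0 then t.q1 else if L = 1 then t.q2 else t.q3
  (C.pools.all fun q => decide (q.2.length = n) && q.2.all fun u => decide (u < n)) &&
    decide (n * ((C.pools.map Prod.fst).sum + ((List.range n).map fun u => C.fix.getD u 0).sum) = t.Q) &&
    (List.range n).all fun u =>
      let s := (C.pools.map fun q => q.1 * q.2.count u).sum
      let p := t.at' L b u
      decide (s + n * C.fix.getD u 0 = t.wt p.1 p.2 L) && decide (s + t.cap p.1 p.2 L ≤ t.wt p.1 p.2 L)

/-- All node certificates. -/
def nodesOK : Bool :=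
  t.nodeOK 0 true && t.nodeOK 1 true &&
    (List.range t.m).all fun j => t.nodeOK (j + 2) true && t.nodeOK (j + 2) false

/-- The pool sizes of the certificates lie in a list. -/
def sizesOK (PK : List (ℕ × ℕ)) : Bool :=
  ((List.range t.q3).all fun x => [true, false].all fun b => (List.range 3).all fun i =>
      (t.cert0 x b i).pools.all fun q => PK.contains (t.mod3 i, q.1)) &&
    ((List.range (t.m + 2)).all fun L => [true, false].all fun b =>
      (t.cert1 L b).pools.all fun q =>
        PK.contains (if L = 0 then t.q1 else if L = 1 then t.q2 else t.q3, q.1))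

/-- All conditions. -/
def ok : Bool := t.labelsOK && t.cellsOK && t.nodesOK

end Tree

end Vale.Agent.P043.R2
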